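import Vale.Agent.P313.H205.Sys

/-!
Numeric tokens: a state `x`, a number `z < q ^ c x` and a tape with the label digits. The mixing
step and its inverse on numeric tokens.
-/

namespace Vale.Agent.P313.H205

open Finset H136

namespace Lay

variable (Y : Lay)

/-- The label of level `a` on the tape. -/
def tlab (a : ℕ) (t : ℕ → ℕ) : Y.Ec × Y.Sd :=
  Y.labOf fun j => ((t (10 * Y.t * a + j) : ℕ) : ZMod Y.q)

/-- The token of level `a` with state `w`, number `z` and the labels on the tape `t`. -/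
def dec : (a : ℕ) → (w : Fin Y.n) → Fin (Y.q ^ Y.c w) → (ℕ → ℕ) → Y.X a
  | 0, w, z, _ => ⟨w, z⟩
  | a + 1, w, z, t => (dec a w z t, Y.tlab a t)

/-- Digit `k` of the shift with the code in block `a`. -/
def bN (a : ℕ) (t : ℕ → ℕ) (k : ℕ) : ℕ :=
  (∑ j ∈ range Y.t, t (10 * Y.t * a + (2 * j + 1)) * t (10 * Y.t * a + 2 * j) ^ k) % Y.q

/-- Digit `k` of the string of a numeric token. -/
def dgN (x z : ℕ) (t : ℕ → ℕ) (k : ℕ) : ℕ :=
  if k < Y.cm then z / Y.q ^ k % Y.q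
  else if k < Y.cm + Y.nd then x / Y.q ^ (k - Y.cm) % Y.q
  else t (k - Y.off 0)

/-- The polynomial with the digits of a numeric token. -/
def evN (a x z : ℕ) (t : ℕ → ℕ) (y : ℕ) : ℕ :=
  (∑ k ∈ range (Y.off a), Y.dgN x z t k * y ^ k) % Y.q

/-- Digit `o` of the hash value of a numeric token, the seed is in block `a`. -/
def hN (a x z : ℕ) (t : ℕ → ℕ) (o : ℕ) : ℕ :=
  (t (10 * Y.t * a + (2 * Y.t + 4 * o + 1)) *
      Y.evN a x z t (t (10 * Y.t * a + (2 * Y.t + 4 * o))) +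
    t (10 * Y.t * a + (2 * Y.t + 4 * o + 3)) *
      Y.evN a x z t (t (10 * Y.t * a + (2 * Y.t + 4 * o + 2)))) % Y.q

/-- Adding digits to `z`. -/
def addZ (c : ℕ) (z : ℕ) (g : ℕ → ℕ) : ℕ :=
  ∑ k ∈ range c, ((z / Y.q ^ k % Y.q + g k) % Y.q) * Y.q ^ k

/-- Adding digits to the cells below `10 t a`. -/
def addT (a : ℕ) (t : ℕ → ℕ) (g : ℕ → ℕ) : ℕ → ℕ :=
  fun p => if p < 10 * Y.t * a then (t p + g (Y.off 0 + p)) % Y.q else t p

/-- Adding digits to the code in block `a`. -/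
def addE (a : ℕ) (t : ℕ → ℕ) (g : ℕ → ℕ) : ℕ → ℕ :=
  fun p => if 10 * Y.t * a ≤ p ∧ p < 10 * Y.t * a + 2 * Y.t then
    (t p + g (p - 10 * Y.t * a)) % Y.q else t p

/-- The negative of digits. -/
def negD (g : ℕ → ℕ) (k : ℕ) : ℕ := Y.q - g k

/-- The number `z` after mixing. -/
def mixZ (a x z : ℕ) (t : ℕ → ℕ) : ℕ := Y.addZ (Y.c x) z (Y.bN a t)

/-- The tape after mixing. -/
def mixT (a x z : ℕ) (t : ℕ → ℕ) : ℕ → ℕ :=
  Y.addE a (Y.addT a t (Y.bN a t)) (Y.hN a x (Y.mixZ a x z t) (Y.addT a t (Y.bN a t)))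

/-- The tape in the middle of unmixing. -/
def unmixE (a x z : ℕ) (t : ℕ → ℕ) : ℕ → ℕ := Y.addE a t (Y.negD (Y.hN a x z t))

/-- The number `z` after unmixing. -/
def unmixZ (a x z : ℕ) (t : ℕ → ℕ) : ℕ :=
  Y.addZ (Y.c x) z (Y.negD (Y.bN a (Y.unmixE a x z t)))

/-- The tape after unmixing. -/
def unmixT (a x z : ℕ) (t : ℕ → ℕ) : ℕ → ℕ :=
  Y.addT a (Y.unmixE a x z t) (Y.negD (Y.bN a (Y.unmixE a x z t)))

variable {Y}

theorem dec_congr : ∀ (a : ℕ) (w : Fin Y.n) (z : Fin (Y.q ^ Y.c w)) {t t' : ℕ → ℕ},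
    (∀ p < 10 * Y.t * a, t p = t' p) → Y.dec a w z t = Y.dec a w z t' := by
  intro a
  induction a with
  | zero => intros; rfl
  | succ a ih =>
    intro w z t t' h
    have h0 : 10 * Y.t * (a + 1) = 10 * Y.t * a + 10 * Y.t := by ring
    have h1 : Y.dec a w z t = Y.dec a w z t' := ih w z fun p hp => h p (by omega)
    have h2 : Y.tlab a t = Y.tlab a t' := by
      unfold tlab labOf
      congr 1
      · funext i
        show ((t (10 * Y.t * a + i) : ℕ) : ZMod Y.q) = ((t' (10 * Y.t * a + i) : ℕ) : ZMod Y.q)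
        rw [h _ (by have := i.2; omega)]
      · funext o i
        show ((t (10 * Y.t * a + (2 * Y.t + 4 * o + i)) : ℕ) : ZMod Y.q) =
          ((t' (10 * Y.t * a + (2 * Y.t + 4 * o + i)) : ℕ) : ZMod Y.q)
        rw [h _ (by have := i.2; have := o.2; omega)]
    show (Y.dec a w z t, Y.tlab a t) = (Y.dec a w z t', Y.tlab a t')
    rw [h1, h2]

@[simp] theorem st_dec (a : ℕ) (w : Fin Y.n) (z : Fin (Y.q ^ Y.c w)) (t : ℕ → ℕ) :
    Y.st a (Y.dec a w z t) = w := by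
  induction a with
  | zero => rfl
  | succ a ih => exact ih

theorem off_zero : Y.off 0 = Y.cm + Y.nd := by simp [off]

theorem off_eq (a : ℕ) : Y.off a = Y.off 0 + 10 * Y.t * a := by
  unfold off
  ring

variable [NeZero Y.q]

/-- The digits of a numeric token. -/
theorem dig_dec : ∀ (a : ℕ) (w : Fin Y.n) (z : Fin (Y.q ^ Y.c w))
    (t : ℕ → ℕ) {k : ℕ}, k < Y.off a → Y.dig a (Y.dec a w z t) k = (Y.dgN w z t k : ZMod Y.q) := by
  intro a
  induction a with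
  | zero =>
    intro w z t k hk
    show (if k < Y.cm then (if k < Y.c w then ((z.1 / Y.q ^ k : ℕ) : ZMod Y.q) else 0)
      else if k < Y.cm + Y.nd then ((w.1 / Y.q ^ (k - Y.cm) : ℕ) : ZMod Y.q) else 0) = _
    unfold dgN
    have h0 : Y.off 0 = Y.cm + Y.nd := off_zero
    have hq1 : 1 ≤ Y.q := NeZero.one_le
    split_ifs with h1 h2 h3
    · rw [ZMod.natCast_mod]
    · have : z.1 / Y.q ^ k = 0 :=
        Nat.div_eq_of_lt (z.2.trans_le (Nat.pow_le_pow_right hq1 (by omega)))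
      rw [this]
      simp
    · rw [ZMod.natCast_mod]
    · omega
  | succ a ih =>
    intro w z t k hk
    show (if Y.off a ≤ k ∧ k < Y.off (a + 1) then Y.labDig (Y.tlab a t) (k - Y.off a)
      else Y.dig a (Y.dec a w z t) k) = _
    split_ifs with h
    · unfold tlab
      have h1 : Y.off (a + 1) = Y.off a + 10 * Y.t := off_succ a
      have h2 := off_eq (Y := Y) a
      rw [labDig_labOf _ (by omega)]
      unfold dgN
      have h3 : Y.off 0 = Y.cm + Y.nd := off_zero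
      rw [if_neg (by omega), if_neg (by omega)]
      congr 2
      omega
    · exact ih w z t (by omega)

/-! ### Adding digits -/

omit [NeZero Y.q] in
theorem addZ_lt (hq : 1 ≤ Y.q) (c z : ℕ) (g : ℕ → ℕ) : Y.addZ c z g < Y.q ^ c :=
  sum_digits_lt c fun _ _ => Nat.mod_lt _ (by omega)

omit [NeZero Y.q] in
theorem addZ_digit (hq : 1 ≤ Y.q) {c z : ℕ} {g : ℕ → ℕ} {k : ℕ} (hk : k < c) :
    Y.addZ c z g / Y.q ^ k % Y.q = (z / Y.q ^ k % Y.q + g k) % Y.q :=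
  div_mod_sum hq c (fun _ _ => Nat.mod_lt _ (by omega)) hk

omit [NeZero Y.q] in
theorem addZ_congr {c z : ℕ} {g g' : ℕ → ℕ} (h : ∀ k < c, g k % Y.q = g' k % Y.q) :
    Y.addZ c z g = Y.addZ c z g' := by
  unfold addZ
  refine sum_congr rfl fun k hk => ?_
  rw [Nat.add_mod, h k (mem_range.1 hk), ← Nat.add_mod]

omit [NeZero Y.q] in
theorem addZ_zero (hq : 1 ≤ Y.q) {c z : ℕ} (hz : z < Y.q ^ c) {g : ℕ → ℕ}
    (h : ∀ k < c, g k % Y.q = 0) : Y.addZ c z g = z := by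
  unfold addZ
  conv_rhs => rw [← sum_digits_self hq c hz]
  refine sum_congr rfl fun k hk => ?_
  rw [Nat.add_mod, h k (mem_range.1 hk), add_zero, Nat.mod_mod, Nat.mod_mod]

omit [NeZero Y.q] in
theorem addZ_addZ (hq : 1 ≤ Y.q) {c z : ℕ} {g g' : ℕ → ℕ} :
    Y.addZ c (Y.addZ c z g) g' = Y.addZ c z (fun k => g k + g' k) := by
  conv_lhs => unfold addZ
  conv_rhs => unfold addZ
  refine sum_congr rfl fun k hk => ?_
  have h := addZ_digit (Y := Y) hq (z := z) (g := g) (mem_range.1 hk)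
  unfold addZ at h
  rw [h, Nat.mod_add_mod, add_assoc]

/-! ### Mixing on numeric tokens and on tokens -/

theorem dec_shv (hc : ∀ w, Y.c w ≤ Y.cm) (a : ℕ) (w : Fin Y.n) (z : Fin (Y.q ^ Y.c w))
    (t : ℕ → ℕ) (g : ℕ → ℕ) :
    Y.dec a w ⟨Y.addZ (Y.c w) z g, addZ_lt NeZero.one_le _ _ _⟩ (Y.addT a t g) =
      Y.shv a (fun k => (g k : ZMod Y.q)) (Y.dec a w z t) := by
  rw [← ofDig_dig hc a (Y.dec a w ⟨Y.addZ (Y.c w) z g, _⟩ (Y.addT a t g))]
  unfold shv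
  rw [st_dec, st_dec]
  refine ofDig_congr a w fun k hk => ?_
  have hcw := hc w
  have h0 : Y.off 0 = Y.cm + Y.nd := off_zero
  have ha := off_eq (Y := Y) a
  unfold pl at hk
  rw [mem_union, mem_range, mem_Ico] at hk
  have hka : k < Y.off a := by omega
  rw [dig_dec a w _ _ hka, dig_dec a w _ _ hka]
  unfold dgN
  rcases hk with hk | hk
  · rw [if_pos (by omega), if_pos (by omega), addZ_digit NeZero.one_le hk, ZMod.natCast_mod]
    push_cast
    rfl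
  · rw [if_neg (by omega), if_neg (by omega), if_neg (by omega), if_neg (by omega)]
    unfold addT
    rw [if_pos (by omega), ZMod.natCast_mod]
    push_cast
    congr 2
    congr 1
    omega

omit [NeZero Y.q] in
theorem bv_tlab (a : ℕ) (t : ℕ → ℕ) (k : ℕ) :
    Y.bv (Y.tlab a t).1 k = (Y.bN a t k : ZMod Y.q) := by
  unfold bv bN
  rw [ZMod.natCast_mod]
  push_cast
  rw [sum_range]
  rfl

theorem dec_sh (hc : ∀ w, Y.c w ≤ Y.cm) (a : ℕ) (w : Fin Y.n) (z : Fin (Y.q ^ Y.c w))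
    (t : ℕ → ℕ) :
    Y.dec a w ⟨Y.addZ (Y.c w) z (Y.bN a t), addZ_lt NeZero.one_le _ _ _⟩
      (Y.addT a t (Y.bN a t)) = sh hc a (Y.tlab a t).1 (Y.dec a w z t) := by
  rw [dec_shv hc]
  show _ = Y.shv a (Y.bv (Y.tlab a t).1) _
  congr 1
  funext k
  rw [bv_tlab]

omit [NeZero Y.q] in
theorem bN_le (hq : 1 ≤ Y.q) (a : ℕ) (t : ℕ → ℕ) (k : ℕ) : Y.bN a t k ≤ Y.q :=
  (Nat.mod_lt _ (by omega)).le

omit [NeZero Y.q] in
theorem hN_le (hq : 1 ≤ Y.q) (a x z : ℕ) (t : ℕ → ℕ) (k : ℕ) : Y.hN a x z t k ≤ Y.q :=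
  (Nat.mod_lt _ (by omega)).le

omit [NeZero Y.q] in
theorem cast_negD {g : ℕ → ℕ} {k : ℕ} (h : g k ≤ Y.q) :
    ((Y.negD g k : ℕ) : ZMod Y.q) = -(g k : ZMod Y.q) := by
  unfold negD
  rw [Nat.cast_sub h, ZMod.natCast_self, zero_sub]

theorem dec_sh_symm (hc : ∀ w, Y.c w ≤ Y.cm) (a : ℕ) (w : Fin Y.n) (z : Fin (Y.q ^ Y.c w))
    (t : ℕ → ℕ) :
    Y.dec a w ⟨Y.addZ (Y.c w) z (Y.negD (Y.bN a t)), addZ_lt NeZero.one_le _ _ _⟩
      (Y.addT a t (Y.negD (Y.bN a t))) = (sh hc a (Y.tlab a t).1).symm (Y.dec a w z t) := by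
  rw [dec_shv hc]
  show _ = Y.shv a (-Y.bv (Y.tlab a t).1) _
  congr 1
  funext k
  rw [Pi.neg_apply, bv_tlab, cast_negD (bN_le NeZero.one_le _ _ _)]

/-- The hash value of a numeric token. -/
theorem hs_dec (a : ℕ) (w : Fin Y.n) (z : Fin (Y.q ^ Y.c w)) (t t' : ℕ → ℕ) (i : Fin (2 * Y.t))
    (h' : ∀ p, 10 * Y.t * a + 2 * Y.t ≤ p → p < 10 * Y.t * (a + 1) → t' p = t p) :
    Y.hs a (Y.tlab a t').2 (Y.dec a w z t) i = (Y.hN a w z t i : ZMod Y.q) := by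
  have hev : ∀ y : ℕ, evd (Y.off a) (Y.dig a (Y.dec a w z t)) (y : ZMod Y.q) =
      (Y.evN a w z t y : ZMod Y.q) := by
    intro y
    unfold evd evN
    rw [ZMod.natCast_mod]
    push_cast
    refine sum_congr rfl fun k hk => ?_
    rw [dig_dec a w z t (mem_range.1 hk)]
  have hi := i.2
  have e0 : 10 * Y.t * (a + 1) = 10 * Y.t * a + 10 * Y.t := by ring
  show hash1 (Y.off a) ((Y.tlab a t').2 i) (Y.dig a (Y.dec a w z t)) = _
  unfold hash1
  have hs : ∀ j : Fin 4, (Y.tlab a t').2 i j =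
      ((t (10 * Y.t * a + (2 * Y.t + 4 * i + j)) : ℕ) : ZMod Y.q) := by
    intro j
    show ((t' (10 * Y.t * a + (2 * Y.t + 4 * i + j)) : ℕ) : ZMod Y.q) = _
    rw [h' _ (by omega) (by have := j.2; omega)]
  rw [hs, hs, hs, hs, hev, hev]
  unfold hN
  rw [ZMod.natCast_mod]
  push_cast
  rfl

omit [NeZero Y.q] in
theorem tlab_congr {a : ℕ} {t t' : ℕ → ℕ}
    (h : ∀ p, 10 * Y.t * a ≤ p → p < 10 * Y.t * a + 10 * Y.t → t p = t' p) :
    Y.tlab a t = Y.tlab a t' := by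
  unfold tlab labOf
  congr 1
  · funext i
    show ((t (10 * Y.t * a + i) : ℕ) : ZMod Y.q) = ((t' (10 * Y.t * a + i) : ℕ) : ZMod Y.q)
    rw [h _ (by omega) (by have := i.2; omega)]
  · funext o i
    show ((t (10 * Y.t * a + (2 * Y.t + 4 * o + i)) : ℕ) : ZMod Y.q) =
      ((t' (10 * Y.t * a + (2 * Y.t + 4 * o + i)) : ℕ) : ZMod Y.q)
    rw [h _ (by omega) (by have := i.2; have := o.2; omega)]

omit [NeZero Y.q] in
theorem tlab_addT (a : ℕ) (t : ℕ → ℕ) (g : ℕ → ℕ) : Y.tlab a (Y.addT a t g) = Y.tlab a t := by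
  refine tlab_congr fun p h1 h2 => ?_
  unfold addT
  rw [if_neg (by omega)]

omit [NeZero Y.q] in
theorem tlab_addE_fst (a : ℕ) (t : ℕ → ℕ) (g : ℕ → ℕ) (i : Fin (2 * Y.t)) :
    (Y.tlab a (Y.addE a t g)).1 i = (Y.tlab a t).1 i + (g i : ZMod Y.q) := by
  show ((Y.addE a t g (10 * Y.t * a + i) : ℕ) : ZMod Y.q) =
    ((t (10 * Y.t * a + i) : ℕ) : ZMod Y.q) + _
  unfold addE
  have := i.2
  rw [if_pos (by omega), ZMod.natCast_mod]
  push_cast
  congr 2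
  congr 1
  omega

omit [NeZero Y.q] in
theorem tlab_addE_snd (a : ℕ) (t : ℕ → ℕ) (g : ℕ → ℕ) :
    (Y.tlab a (Y.addE a t g)).2 = (Y.tlab a t).2 := by
  funext o i
  show ((Y.addE a t g (10 * Y.t * a + (2 * Y.t + 4 * o + i)) : ℕ) : ZMod Y.q) =
    ((t (10 * Y.t * a + (2 * Y.t + 4 * o + i)) : ℕ) : ZMod Y.q)
  unfold addE
  rw [if_neg (by omega)]

omit [NeZero Y.q] in
theorem mixZ_lt (hq : 1 ≤ Y.q) (a x z : ℕ) (t : ℕ → ℕ) : Y.mixZ a x z t < Y.q ^ Y.c x :=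
  addZ_lt hq _ _ _

omit [NeZero Y.q] in
theorem unmixZ_lt (hq : 1 ≤ Y.q) (a x z : ℕ) (t : ℕ → ℕ) : Y.unmixZ a x z t < Y.q ^ Y.c x :=
  addZ_lt hq _ _ _

/-- Mixing a numeric token. -/
theorem dec_mix (hc : ∀ w, Y.c w ≤ Y.cm) (T0 : Y.X0 → Y.X0) (a : ℕ) (w : Fin Y.n)
    (z : Fin (Y.q ^ Y.c w)) (t : ℕ → ℕ) :
    Y.dec (a + 1) w ⟨Y.mixZ a w z t, mixZ_lt NeZero.one_le _ _ _ _⟩ (Y.mixT a w z t) =
      (sys hc T0).R a (Y.dec (a + 1) w z t) := by
  have h1 : Y.dec a w ⟨Y.mixZ a w z t, mixZ_lt NeZero.one_le _ _ _ _⟩ (Y.mixT a w z t) =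
      sh hc a (Y.tlab a t).1 (Y.dec a w z t) := by
    rw [← dec_sh hc]
    refine dec_congr a w _ fun p hp => ?_
    unfold mixT addE
    rw [if_neg (by omega)]
  refine Prod.ext ?_ (Prod.ext ?_ ?_)
  · exact h1
  · show (Y.tlab a (Y.mixT a w z t)).1 = (Y.tlab a t).1 +
      Y.hs a (Y.tlab a t).2 (sh hc a (Y.tlab a t).1 (Y.dec a w z t))
    funext i
    rw [Pi.add_apply, ← dec_sh hc]
    unfold mixT
    rw [tlab_addE_fst, tlab_addT, hs_dec]
    · rfl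
    · intro p hp hp'
      unfold addT
      rw [if_neg (by omega)]
  · show (Y.tlab a (Y.mixT a w z t)).2 = (Y.tlab a t).2
    unfold mixT
    rw [tlab_addE_snd, tlab_addT]

/-- Undoing the mixing of a numeric token. -/
theorem dec_unmix (hc : ∀ w, Y.c w ≤ Y.cm) (T0 : Y.X0 → Y.X0) (a : ℕ) (w : Fin Y.n)
    (z : Fin (Y.q ^ Y.c w)) (t : ℕ → ℕ) :
    Y.dec (a + 1) w ⟨Y.unmixZ a w z t, unmixZ_lt NeZero.one_le _ _ _ _⟩ (Y.unmixT a w z t) =
      (sys hc T0).Ri a (Y.dec (a + 1) w z t) := by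
  have hE : Y.dec a w z (Y.unmixE a w z t) = Y.dec a w z t := by
    refine dec_congr a w _ fun p hp => ?_
    unfold unmixE addE
    rw [if_neg (by omega)]
  have he : (Y.tlab a (Y.unmixE a w z t)).1 = (Y.tlab a t).1 -
      Y.hs a (Y.tlab a t).2 (Y.dec a w z t) := by
    funext i
    unfold unmixE
    rw [tlab_addE_fst, Pi.sub_apply, hs_dec a w z t t i (fun _ _ _ => rfl),
      cast_negD (hN_le NeZero.one_le _ _ _ _ _), sub_eq_add_neg]
  refine Prod.ext ?_ (Prod.ext ?_ ?_)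
  · show Y.dec a w ⟨Y.unmixZ a w z t, _⟩ (Y.unmixT a w z t) =
      (sh hc a ((Y.tlab a t).1 - Y.hs a (Y.tlab a t).2 (Y.dec a w z t))).symm (Y.dec a w z t)
    rw [← he, ← hE, ← dec_sh_symm hc]
    rfl
  · show (Y.tlab a (Y.unmixT a w z t)).1 = (Y.tlab a t).1 -
      Y.hs a (Y.tlab a t).2 (Y.dec a w z t)
    unfold unmixT
    rw [tlab_addT, he]
  · show (Y.tlab a (Y.unmixT a w z t)).2 = (Y.tlab a t).2
    unfold unmixT unmixE
    rw [tlab_addT, tlab_addE_snd]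

/-! ### The two numeric moves are inverse to each other -/

omit [NeZero Y.q] in
theorem bN_congr {a : ℕ} {t t' : ℕ → ℕ}
    (h : ∀ p, 10 * Y.t * a ≤ p → p < 10 * Y.t * a + 2 * Y.t → t p = t' p) (k : ℕ) :
    Y.bN a t k = Y.bN a t' k := by
  unfold bN
  congr 1
  refine sum_congr rfl fun j hj => ?_
  have := mem_range.1 hj
  rw [h _ (by omega) (by omega), h _ (by omega) (by omega)]

omit [NeZero Y.q] in
theorem dgN_congr {x z a : ℕ} {t t' : ℕ → ℕ} (h : ∀ p < 10 * Y.t * a, t p = t' p) {k : ℕ}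
    (hk : k < Y.off a) : Y.dgN x z t k = Y.dgN x z t' k := by
  unfold dgN
  split_ifs with h1 h2
  · rfl
  · rfl
  · have h3 : Y.off 0 = Y.cm + Y.nd := off_zero
    have h4 := off_eq (Y := Y) a
    exact h _ (by omega)

omit [NeZero Y.q] in
theorem hN_congr {a x z : ℕ} {t t' : ℕ → ℕ} (h : ∀ p < 10 * Y.t * a, t p = t' p)
    (h' : ∀ p, 10 * Y.t * a + 2 * Y.t ≤ p → p < 10 * Y.t * a + 10 * Y.t → t p = t' p) {o : ℕ}
    (ho : o < 2 * Y.t) : Y.hN a x z t o = Y.hN a x z t' o := by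
  have hev : ∀ y, Y.evN a x z t y = Y.evN a x z t' y := by
    intro y
    unfold evN
    congr 1
    refine sum_congr rfl fun k hk => ?_
    rw [dgN_congr h (mem_range.1 hk)]
  unfold hN
  rw [h' _ (by omega) (by omega), h' _ (by omega) (by omega), h' _ (by omega) (by omega),
    h' _ (by omega) (by omega), hev, hev]

omit [NeZero Y.q] in
theorem addT_addT (a : ℕ) (t : ℕ → ℕ) (g g' : ℕ → ℕ) :
    Y.addT a (Y.addT a t g) g' = Y.addT a t fun k => g k + g' k := by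
  funext p
  unfold addT
  split_ifs
  · rw [Nat.mod_add_mod, add_assoc]
  · rfl

omit [NeZero Y.q] in
theorem addE_addE (a : ℕ) (t : ℕ → ℕ) (g g' : ℕ → ℕ) :
    Y.addE a (Y.addE a t g) g' = Y.addE a t fun k => g k + g' k := by
  funext p
  unfold addE
  split_ifs
  · rw [Nat.mod_add_mod, add_assoc]
  · rfl

omit [NeZero Y.q] in
theorem addT_zero {a : ℕ} {t : ℕ → ℕ} (ht : ∀ p < 10 * Y.t * a, t p < Y.q) {g : ℕ → ℕ}
    (hg : ∀ k, g k % Y.q = 0) : Y.addT a t g = t := by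
  funext p
  unfold addT
  split_ifs with h
  · rw [Nat.add_mod, hg, add_zero, Nat.mod_mod, Nat.mod_eq_of_lt (ht p h)]
  · rfl

omit [NeZero Y.q] in
theorem addE_zero {a : ℕ} {t : ℕ → ℕ}
    (ht : ∀ p, 10 * Y.t * a ≤ p → p < 10 * Y.t * a + 2 * Y.t → t p < Y.q) {g : ℕ → ℕ}
    (hg : ∀ k < 2 * Y.t, g k % Y.q = 0) : Y.addE a t g = t := by
  funext p
  unfold addE
  split_ifs with h
  · rw [Nat.add_mod, hg _ (by omega), add_zero, Nat.mod_mod, Nat.mod_eq_of_lt (ht p h.1 h.2)]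
  · rfl

omit [NeZero Y.q] in
theorem add_negD {g : ℕ → ℕ} {k : ℕ} (h : g k ≤ Y.q) : (g k + Y.negD g k) % Y.q = 0 := by
  unfold negD
  rw [Nat.add_sub_cancel' h, Nat.mod_self]

omit [NeZero Y.q] in
theorem negD_add {g : ℕ → ℕ} {k : ℕ} (h : g k ≤ Y.q) : (Y.negD g k + g k) % Y.q = 0 := by
  unfold negD
  rw [Nat.sub_add_cancel h, Nat.mod_self]

omit [NeZero Y.q] in
theorem unmixE_mix (hq : 1 ≤ Y.q) {a x z : ℕ} {t : ℕ → ℕ}
    (ht : ∀ p < 10 * Y.t * (a + 1), t p < Y.q) :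
    Y.unmixE a x (Y.mixZ a x z t) (Y.mixT a x z t) = Y.addT a t (Y.bN a t) := by
  have e0 : 10 * Y.t * (a + 1) = 10 * Y.t * a + 10 * Y.t := by ring
  unfold unmixE mixT
  rw [addE_addE]
  have h1 : ∀ k < 2 * Y.t, (Y.hN a x (Y.mixZ a x z t) (Y.addT a t (Y.bN a t)) k +
      Y.negD (Y.hN a x (Y.mixZ a x z t) (Y.addE a (Y.addT a t (Y.bN a t))
        (Y.hN a x (Y.mixZ a x z t) (Y.addT a t (Y.bN a t))))) k) % Y.q = 0 := by
    intro k hk
    have h2 : Y.hN a x (Y.mixZ a x z t) (Y.addT a t (Y.bN a t)) k =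
        Y.hN a x (Y.mixZ a x z t) (Y.addE a (Y.addT a t (Y.bN a t))
        (Y.hN a x (Y.mixZ a x z t) (Y.addT a t (Y.bN a t)))) k := by
      refine hN_congr (fun p hp => ?_) (fun p hp hp' => ?_) hk
      · unfold addE
        rw [if_neg (by omega)]
      · unfold addE
        rw [if_neg (by omega)]
    rw [h2]
    exact add_negD (hN_le hq _ _ _ _ _)
  refine addE_zero (fun p hp hp' => ?_) h1
  unfold addT
  rw [if_neg (by omega)]
  exact ht p (by omega)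

omit [NeZero Y.q] in
theorem bN_addT (a : ℕ) (t : ℕ → ℕ) (g : ℕ → ℕ) : Y.bN a (Y.addT a t g) = Y.bN a t := by
  funext k
  refine bN_congr (fun p hp hp' => ?_) k
  unfold addT
  rw [if_neg (by omega)]

omit [NeZero Y.q] in
theorem unmixZ_mix (hq : 1 ≤ Y.q) {a x z : ℕ} {t : ℕ → ℕ}
    (ht : ∀ p < 10 * Y.t * (a + 1), t p < Y.q) (hz : z < Y.q ^ Y.c x) :
    Y.unmixZ a x (Y.mixZ a x z t) (Y.mixT a x z t) = z := by
  unfold unmixZ
  rw [unmixE_mix hq ht, bN_addT]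
  unfold mixZ
  rw [addZ_addZ hq]
  exact addZ_zero hq hz fun k _ => add_negD (bN_le hq _ _ _)

omit [NeZero Y.q] in
theorem unmixT_mix (hq : 1 ≤ Y.q) {a x z : ℕ} {t : ℕ → ℕ}
    (ht : ∀ p < 10 * Y.t * (a + 1), t p < Y.q) :
    Y.unmixT a x (Y.mixZ a x z t) (Y.mixT a x z t) = t := by
  have e0 : 10 * Y.t * (a + 1) = 10 * Y.t * a + 10 * Y.t := by ring
  unfold unmixT
  rw [unmixE_mix hq ht, bN_addT, addT_addT]
  exact addT_zero (fun p hp => ht p (by omega)) fun k => add_negD (bN_le hq _ _ _)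

omit [NeZero Y.q] in
theorem bN_unmixT (a x z : ℕ) (t : ℕ → ℕ) :
    Y.bN a (Y.unmixT a x z t) = Y.bN a (Y.unmixE a x z t) := bN_addT _ _ _

omit [NeZero Y.q] in
theorem addZ_cancel (hq : 1 ≤ Y.q) {c z : ℕ} (hz : z < Y.q ^ c) {g : ℕ → ℕ}
    (hg : ∀ k, g k ≤ Y.q) : Y.addZ c (Y.addZ c z (Y.negD g)) g = z := by
  rw [addZ_addZ hq]
  exact addZ_zero hq hz fun k _ => negD_add (hg k)

omit [NeZero Y.q] in
theorem mixZ_unmix (hq : 1 ≤ Y.q) {a x z : ℕ} {t : ℕ → ℕ} (hz : z < Y.q ^ Y.c x) :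
    Y.mixZ a x (Y.unmixZ a x z t) (Y.unmixT a x z t) = z := by
  unfold mixZ
  rw [bN_unmixT]
  exact addZ_cancel hq hz fun k => bN_le hq _ _ _

omit [NeZero Y.q] in
theorem mixT_unmix (hq : 1 ≤ Y.q) {a x z : ℕ} {t : ℕ → ℕ}
    (ht : ∀ p < 10 * Y.t * (a + 1), t p < Y.q) (hz : z < Y.q ^ Y.c x) :
    Y.mixT a x (Y.unmixZ a x z t) (Y.unmixT a x z t) = t := by
  have e0 : 10 * Y.t * (a + 1) = 10 * Y.t * a + 10 * Y.t := by ring
  have hE : ∀ p < 10 * Y.t * a, Y.unmixE a x z t p < Y.q := by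
    intro p hp
    unfold unmixE addE
    rw [if_neg (by omega)]
    exact ht p (by omega)
  have h1 : Y.addT a (Y.unmixT a x z t) (Y.bN a (Y.unmixT a x z t)) = Y.unmixE a x z t := by
    rw [bN_unmixT]
    unfold unmixT
    rw [addT_addT]
    exact addT_zero hE fun k => negD_add (bN_le hq _ _ _)
  unfold mixT
  rw [h1, mixZ_unmix hq hz]
  unfold unmixE
  rw [addE_addE]
  refine addE_zero (fun p hp hp' => ht p (by omega)) fun k hk => ?_
  have h2 : Y.hN a x z (Y.addE a t (Y.negD (Y.hN a x z t))) k = Y.hN a x z t k := by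
    refine hN_congr (fun p hp => ?_) (fun p hp hp' => ?_) hk
    · unfold addE
      rw [if_neg (by omega)]
    · unfold addE
      rw [if_neg (by omega)]
  rw [h2]
  exact negD_add (hN_le hq _ _ _ _ _)

/-! ### Valid tapes -/

omit [NeZero Y.q] in
theorem addT_lt (hq : 1 ≤ Y.q) (a : ℕ) {t : ℕ → ℕ} (g : ℕ → ℕ) {p : ℕ} (ht : t p < Y.q) :
    Y.addT a t g p < Y.q := by
  unfold addT
  split_ifs
  · exact Nat.mod_lt _ (by omega)
  · exact ht

omit [NeZero Y.q] in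
theorem addE_lt (hq : 1 ≤ Y.q) (a : ℕ) {t : ℕ → ℕ} (g : ℕ → ℕ) {p : ℕ} (ht : t p < Y.q) :
    Y.addE a t g p < Y.q := by
  unfold addE
  split_ifs
  · exact Nat.mod_lt _ (by omega)
  · exact ht

omit [NeZero Y.q] in
theorem addT_of_le (a : ℕ) (t : ℕ → ℕ) (g : ℕ → ℕ) {p : ℕ} (hp : 10 * Y.t * (a + 1) ≤ p) :
    Y.addT a t g p = t p := by
  have e0 : 10 * Y.t * (a + 1) = 10 * Y.t * a + 10 * Y.t := by ring
  unfold addT
  rw [if_neg (by omega)]

omit [NeZero Y.q] in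
theorem addE_of_le (a : ℕ) (t : ℕ → ℕ) (g : ℕ → ℕ) {p : ℕ} (hp : 10 * Y.t * (a + 1) ≤ p) :
    Y.addE a t g p = t p := by
  have e0 : 10 * Y.t * (a + 1) = 10 * Y.t * a + 10 * Y.t := by ring
  unfold addE
  by_cases ht : Y.t = 0
  · rw [if_neg (by omega)]
  · rw [if_neg (by omega)]

omit [NeZero Y.q] in
theorem mixT_lt (hq : 1 ≤ Y.q) (a x z : ℕ) {t : ℕ → ℕ} {p : ℕ} (ht : t p < Y.q) :
    Y.mixT a x z t p < Y.q := addE_lt hq _ _ (addT_lt hq _ _ ht)

omit [NeZero Y.q] in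
theorem unmixT_lt (hq : 1 ≤ Y.q) (a x z : ℕ) {t : ℕ → ℕ} {p : ℕ} (ht : t p < Y.q) :
    Y.unmixT a x z t p < Y.q := addT_lt hq _ _ (addE_lt hq _ _ ht)

omit [NeZero Y.q] in
/-- Mixing at level `a` does not touch the blocks above `a`. -/
theorem mixT_of_le (a x z : ℕ) (t : ℕ → ℕ) {p : ℕ} (hp : 10 * Y.t * (a + 1) ≤ p) :
    Y.mixT a x z t p = t p := by
  unfold mixT
  rw [addE_of_le _ _ _ hp, addT_of_le _ _ _ hp]

omit [NeZero Y.q] in
/-- Unmixing at level `a` does not touch the blocks above `a`. -/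
theorem unmixT_of_le (a x z : ℕ) (t : ℕ → ℕ) {p : ℕ} (hp : 10 * Y.t * (a + 1) ≤ p) :
    Y.unmixT a x z t p = t p := by
  unfold unmixT unmixE
  rw [addT_of_le _ _ _ hp, addE_of_le _ _ _ hp]

/-! ### All tokens are numeric tokens -/

/-- The tape with the labels of a token. -/
def tapeOf : (a : ℕ) → Y.X a → (ℕ → ℕ)
  | 0, _ => fun _ => 0
  | a + 1, u => fun p =>
    if 10 * Y.t * a ≤ p ∧ p < 10 * Y.t * (a + 1) then (Y.labDig u.2 (p - 10 * Y.t * a)).val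
    else tapeOf a u.1 p

theorem tapeOf_lt : ∀ (a : ℕ) (u : Y.X a) (p : ℕ), tapeOf a u p < Y.q := by
  intro a
  induction a with
  | zero =>
    intro u p
    exact Nat.pos_of_ne_zero (NeZero.ne _)
  | succ a ih =>
    intro u p
    unfold tapeOf
    split_ifs
    · exact ZMod.val_lt _
    · exact ih _ _

omit [NeZero Y.q] in
theorem tapeOf_of_le : ∀ (a : ℕ) (u : Y.X a) {p : ℕ}, 10 * Y.t * a ≤ p → tapeOf a u p = 0 := by
  intro a
  induction a with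
  | zero => intros; rfl
  | succ a ih =>
    intro u p hp
    have e0 : 10 * Y.t * (a + 1) = 10 * Y.t * a + 10 * Y.t := by ring
    unfold tapeOf
    rw [if_neg (by omega)]
    exact ih _ (by omega)

/-- The number of a token. -/
def numZ : (a : ℕ) → (u : Y.X a) → Fin (Y.q ^ Y.c (Y.st a u))
  | 0, u => u.2
  | a + 1, u => numZ a u.1

theorem dec_tapeOf : ∀ (a : ℕ) (u : Y.X a) (t : ℕ → ℕ),
    (∀ p < 10 * Y.t * a, t p = tapeOf a u p) → Y.dec a (Y.st a u) (numZ a u) t = u := by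
  intro a
  induction a with
  | zero => intros; rfl
  | succ a ih =>
    intro u t h
    have e0 : 10 * Y.t * (a + 1) = 10 * Y.t * a + 10 * Y.t := by ring
    refine Prod.ext ?_ ?_
    · refine ih u.1 t fun p hp => ?_
      rw [h p (by omega)]
      show (if 10 * Y.t * a ≤ p ∧ p < 10 * Y.t * (a + 1) then _ else tapeOf a u.1 p) = _
      rw [if_neg (by omega)]
    · show Y.tlab a t = u.2
      conv_rhs => rw [← labOf_labDig u.2]
      have h2 : ∀ j < 10 * Y.t, ((t (10 * Y.t * a + j) : ℕ) : ZMod Y.q) = Y.labDig u.2 j := by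
        intro j hj
        rw [h _ (by omega)]
        show (((if 10 * Y.t * a ≤ 10 * Y.t * a + j ∧ 10 * Y.t * a + j < 10 * Y.t * (a + 1) then
          (Y.labDig u.2 (10 * Y.t * a + j - 10 * Y.t * a)).val else _ : ℕ)) : ZMod Y.q) = _
        rw [if_pos (by omega), Nat.add_sub_cancel_left, ZMod.natCast_val, ZMod.cast_id', id_eq]
      unfold tlab labOf
      congr 1
      · funext i
        exact h2 _ (by have := i.2; omega)
      · funext o i
        exact h2 _ (by have := i.2; have := o.2; omega)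

end Lay

end Vale.Agent.P313.H205
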