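import Vale.Agent.P313.H205.Lev

/-!
Shifts of the digits of tokens, hash values of tokens: the spectral gap and the almost pairwise
independence.
-/

namespace Vale.Agent.P313.H205

open Finset

namespace Lay

variable (Y : Lay)

section defs

variable [NeZero Y.q]

/-- Adding `b` to the digits of a token. -/
def shv (a : ℕ) (b : ℕ → ZMod Y.q) (u : Y.X a) : Y.X a :=
  Y.ofDig a (Y.st a u) fun k => Y.dig a u k + b k

/-- The digits of the shift with code `e`. -/
def bv (e : Y.Ec) (k : ℕ) : ZMod Y.q :=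
  ∑ j : Fin Y.t, e ⟨2 * j + 1, by omega⟩ * e ⟨2 * j, by omega⟩ ^ k

/-- The hash value of a token. -/
def hs (a : ℕ) (s : Y.Sd) (u : Y.X a) : Y.Ec := hashv (Y.off a) s (Y.dig a u)

end defs

variable {Y}

section basic

variable [NeZero Y.q]

@[simp] theorem st_shv (a : ℕ) (b : ℕ → ZMod Y.q) (u : Y.X a) :
    Y.st a (Y.shv a b u) = Y.st a u := st_ofDig _ _ _

theorem dig_shv (hc : ∀ w, Y.c w ≤ Y.cm) (a : ℕ) (b : ℕ → ZMod Y.q) (u : Y.X a) {k : ℕ}
    (hk : k ∈ Y.pl a (Y.st a u)) : Y.dig a (Y.shv a b u) k = Y.dig a u k + b k :=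
  dig_ofDig hc _ _ _ hk

theorem dig_shv_of_notMem (a : ℕ) (b : ℕ → ZMod Y.q) (u : Y.X a) {k : ℕ}
    (hk : k ∉ Y.pl a (Y.st a u)) : Y.dig a (Y.shv a b u) k = Y.dig a u k := by
  rw [dig_of_notMem a u hk, dig_of_notMem a (Y.shv a b u) (by rwa [st_shv]), st_shv]

theorem shv_zero (hc : ∀ w, Y.c w ≤ Y.cm) (a : ℕ) (u : Y.X a) : Y.shv a 0 u = u := by
  unfold shv
  conv_rhs => rw [← ofDig_dig hc a u]
  refine ofDig_congr a _ fun k _ => ?_
  simp

theorem shv_shv (hc : ∀ w, Y.c w ≤ Y.cm) (a : ℕ) (b b' : ℕ → ZMod Y.q) (u : Y.X a) :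
    Y.shv a b (Y.shv a b' u) = Y.shv a (b' + b) u := by
  have h : Y.ofDig a (Y.st a (Y.shv a b' u)) (fun k => Y.dig a (Y.shv a b' u) k + b k) =
      Y.ofDig a (Y.st a u) (fun k => Y.dig a u k + (b' + b) k) := by
    rw [st_shv]
    refine ofDig_congr a _ fun k hk => ?_
    rw [dig_shv hc a b' u hk, Pi.add_apply, add_assoc]
  exact h

/-- The shift with code `e` is a permutation of the tokens. -/
def sh (hc : ∀ w, Y.c w ≤ Y.cm) (a : ℕ) (e : Y.Ec) : Equiv.Perm (Y.X a) where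
  toFun := Y.shv a (Y.bv e)
  invFun := Y.shv a (-Y.bv e)
  left_inv u := by
    rw [shv_shv hc, add_neg_cancel, shv_zero hc]
  right_inv u := by
    rw [shv_shv hc, neg_add_cancel, shv_zero hc]

@[simp] theorem st_sh (hc : ∀ w, Y.c w ≤ Y.cm) (a : ℕ) (e : Y.Ec) (u : Y.X a) :
    Y.st a (sh hc a e u) = Y.st a u := st_shv _ _ _

@[simp] theorem st_sh_symm (hc : ∀ w, Y.c w ≤ Y.cm) (a : ℕ) (e : Y.Ec) (u : Y.X a) :
    Y.st a ((sh hc a e).symm u) = Y.st a u := st_shv _ _ _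

/-- The digit string determines the token. -/
theorem dig_inj (hc : ∀ w, Y.c w ≤ Y.cm) (hn : Y.n ≤ Y.q ^ Y.nd) {a : ℕ} {u u' : Y.X a}
    (h : ∀ k < Y.off a, Y.dig a u k = Y.dig a u' k) : u = u' := by
  have hq1 : 1 ≤ Y.q := NeZero.one_le
  have hcmo : Y.cm + Y.nd ≤ Y.off a := by unfold off; omega
  have hst : Y.st a u = Y.st a u' := by
    apply Fin.ext
    have h1 : ∀ v : Y.X a, ∀ j < Y.nd, (Y.dig a v (Y.cm + j)).val =
        (Y.st a v).1 / Y.q ^ j % Y.q := by
      intro v j hj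
      have hnot : Y.cm + j ∉ Y.pl a (Y.st a v) := by
        unfold pl
        rw [mem_union, mem_range, mem_Ico]
        have := hc (Y.st a v)
        unfold off
        omega
      rw [dig_of_notMem a v hnot, if_pos (by omega), Nat.add_sub_cancel_left, ZMod.val_natCast]
    have h2 := sum_digits_self hq1 Y.nd ((Y.st a u).2.trans_le hn)
    have h3 := sum_digits_self hq1 Y.nd ((Y.st a u').2.trans_le hn)
    rw [← h2, ← h3]
    refine sum_congr rfl fun j hj => ?_
    have hj' := mem_range.1 hj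
    rw [← h1 u j hj', ← h1 u' j hj', h _ (by omega)]
  rw [← ofDig_dig hc a u, ← ofDig_dig hc a u', hst]
  refine ofDig_congr a _ fun k hk => h k ?_
  unfold pl at hk
  rw [mem_union, mem_range, mem_Ico] at hk
  have := hc (Y.st a u')
  omega

end basic

section sums

variable [NeZero Y.q]

/-- Extending a digit string by zero. -/
def ext0 {P : Finset ℕ} (f : P → ZMod Y.q) (k : ℕ) : ZMod Y.q := if h : k ∈ P then f ⟨k, h⟩ else 0

/-- The tokens of level `a` as digit strings. -/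
def fibE (hc : ∀ w, Y.c w ≤ Y.cm) (a : ℕ) :
    Y.X a ≃ Σ w : Fin Y.n, (Y.pl a w → ZMod Y.q) where
  toFun u := ⟨Y.st a u, fun k => Y.dig a u k⟩
  invFun p := Y.ofDig a p.1 (ext0 p.2)
  left_inv u := by
    conv_rhs => rw [← ofDig_dig hc a u]
    refine ofDig_congr a _ fun k hk => ?_
    simp only [ext0]
    rw [dif_pos hk]
  right_inv p := by
    obtain ⟨w, f⟩ := p
    have h1 : Y.st a (Y.ofDig a w (ext0 f)) = w := st_ofDig _ _ _
    have h2 : ∀ k : Y.pl a w, Y.dig a (Y.ofDig a w (ext0 f)) k = f k := by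
      intro k
      rw [dig_ofDig hc a w _ k.2]
      simp only [ext0]
      rw [dif_pos k.2]
    refine Sigma.ext h1 ?_
    simp only
    generalize Y.ofDig a w (ext0 f) = u at h1 h2
    subst h1
    refine heq_of_eq (funext fun k => h2 k)

/-- Sums over all tokens. -/
theorem sum_X (hc : ∀ w, Y.c w ≤ Y.cm) (a : ℕ) (F : Y.X a → ℝ) :
    ∑ u, F u = ∑ w : Fin Y.n, ∑ f : Y.pl a w → ZMod Y.q, F (Y.ofDig a w (ext0 f)) := by
  rw [← Fintype.sum_sigma', ← (fibE hc a).symm.sum_comp]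
  rfl

/-- Sums over the tokens of a state. -/
theorem sum_fib (hc : ∀ w, Y.c w ≤ Y.cm) (a : ℕ) (w : Fin Y.n) (F : Y.X a → ℝ) :
    ∑ u with Y.st a u = w, F u = ∑ f : Y.pl a w → ZMod Y.q, F (Y.ofDig a w (ext0 f)) := by
  rw [sum_filter, sum_X hc a]
  rw [sum_eq_single w]
  · refine sum_congr rfl fun f _ => ?_
    rw [if_pos (st_ofDig _ _ _)]
  · intro w' _ hw'
    refine sum_eq_zero fun f _ => ?_
    rw [if_neg]
    rw [st_ofDig]
    exact hw'
  · intro h
    exact absurd (mem_univ _) h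

omit [NeZero Y.q] in
theorem card_pl (hc : ∀ w, Y.c w ≤ Y.cm) (a w : ℕ) : #(Y.pl a w) = Y.c w + 10 * Y.t * a := by
  unfold pl
  rw [card_union_of_disjoint, card_range, Nat.card_Ico]
  · unfold off
    omega
  · rw [disjoint_left]
    intro k h1 h2
    rw [mem_range] at h1
    rw [mem_Ico] at h2
    have := hc w
    unfold off at h2
    omega

/-- The number of tokens of a state. -/
theorem card_fib (hc : ∀ w, Y.c w ≤ Y.cm) (a : ℕ) (w : Fin Y.n) :
    #{u : Y.X a | Y.st a u = w} = Y.q ^ (Y.c w + 10 * Y.t * a) := by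
  have h := sum_fib hc a w (fun _ => 1)
  simp only [sum_const, nsmul_eq_mul, mul_one, card_univ] at h
  have h2 : #{u : Y.X a | Y.st a u = w} = Fintype.card (Y.pl a w → ZMod Y.q) := by
    exact_mod_cast h
  rw [h2, Fintype.card_fun, ZMod.card, Fintype.card_coe, card_pl hc]

end sums

end Lay

end Vale.Agent.P313.H205
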