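import Vale.Agent.P313.H205.Act

/-!
The spectral gap of the shifts and the almost pairwise independence of the hash values, on tokens.
-/

namespace Vale.Agent.P313.H205

open Finset

namespace Lay

variable {Y : Lay}

/-- Shift codes as pairs. -/
def codeE (Y : Lay) : Y.Ec ≃ Code Y.q Y.t where
  toFun e j := (e ⟨2 * j, by omega⟩, e ⟨2 * j + 1, by omega⟩)
  invFun c i := if i.1 % 2 = 0 then (c ⟨i.1 / 2, by omega⟩).1 else (c ⟨i.1 / 2, by omega⟩).2
  left_inv e := by
    funext i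
    simp only
    split_ifs with h
    · congr 1
      apply Fin.ext
      simp only
      omega
    · congr 1
      apply Fin.ext
      simp only
      omega
  right_inv c := by
    funext j
    simp only
    have h1 : (2 * j.1) % 2 = 0 := by omega
    have h2 : (2 * j.1 + 1) % 2 ≠ 0 := by omega
    have h3 : (2 * j.1) / 2 = j.1 := by omega
    have h4 : (2 * j.1 + 1) / 2 = j.1 := by omega
    simp only [h1, h2, h3, h4, if_true, if_false, Fin.eta]

theorem shiftVec_codeE (e : Y.Ec) {I : Type*} (num : I → ℕ) (i : I) :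
    shiftVec num (codeE Y e) i = Y.bv e (num i) := rfl

variable [hq : Fact Y.q.Prime]

theorem card_Ec : (Fintype.card Y.Ec : ℝ) = (Y.q : ℝ) ^ (2 * Y.t) := by
  rw [Fintype.card_fun, ZMod.card, Fintype.card_fin]
  push_cast
  rfl

/-- The sum over the shifts of a token given by digits. -/
theorem sum_shift_ofDig (hc : ∀ w, Y.c w ≤ Y.cm) (a : ℕ) (w : Fin Y.n)
    (f : Y.pl a w → ZMod Y.q) (m : Y.X a → ℝ) :
    ∑ e : Y.Ec, m ((sh hc a e).symm (Y.ofDig a w (ext0 f))) =
      shiftSum (Subtype.val : Y.pl a w → ℕ) Y.t (fun g => m (Y.ofDig a w (ext0 g))) f := by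
  unfold shiftSum
  rw [← (codeE Y).sum_comp]
  refine sum_congr rfl fun e _ => ?_
  have h : (sh hc a e).symm (Y.ofDig a w (ext0 f)) =
      Y.ofDig a w (ext0 (f - shiftVec (Subtype.val : Y.pl a w → ℕ) (codeE Y e))) := by
    show Y.ofDig a (Y.st a (Y.ofDig a w (ext0 f)))
      (fun k => Y.dig a (Y.ofDig a w (ext0 f)) k + (-Y.bv e) k) = _
    rw [st_ofDig]
    refine ofDig_congr a w fun k hk => ?_
    rw [dig_ofDig hc a w _ hk]
    simp only [ext0]
    rw [dif_pos hk, dif_pos hk, Pi.sub_apply, shiftVec_codeE, Pi.neg_apply, sub_eq_add_neg]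
  rw [h]

/-- The average over the shifts is close to the average over the tokens of the same state. -/
theorem gap (hc : ∀ w, Y.c w ≤ Y.cm) (a : ℕ) (m : Y.X a → ℝ) :
    ∑ u, ((∑ e : Y.Ec, m ((sh hc a e).symm u)) / Fintype.card Y.Ec -
      (∑ v with Y.st a v = Y.st a u, m v) / #{v : Y.X a | Y.st a v = Y.st a u}) ^ 2 ≤
      (((Y.off a : ℝ) / Y.q) ^ Y.t) ^ 2 * ∑ u, m u ^ 2 := by
  rw [sum_X hc a, sum_X hc a, mul_sum]
  refine sum_le_sum fun w _ => ?_
  have h := shift_gap (q := Y.q) (I := Y.pl a w) (num := Subtype.val) Subtype.val_injective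
    (N := Y.off a) (fun i => by
      have hi := i.2
      unfold pl at hi
      rw [mem_union, mem_range, mem_Ico] at hi
      have := hc w
      have h1 : Y.cm ≤ Y.off a := by unfold off; omega
      omega) Y.t (fun g => m (Y.ofDig a w (ext0 g)))
  refine le_trans (le_of_eq ?_) h
  refine sum_congr rfl fun f _ => ?_
  rw [sum_shift_ofDig hc, card_Ec, st_ofDig, sum_fib hc, card_fib hc, Fintype.card_coe,
    card_pl hc]
  push_cast
  rfl

/-- The average over the shifts is self-adjoint. -/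
theorem shift_symm (hc : ∀ w, Y.c w ≤ Y.cm) (a : ℕ) (m g : Y.X a → ℝ) :
    ∑ u, (∑ e : Y.Ec, m ((sh hc a e).symm u)) * g u =
      ∑ u, m u * ∑ e : Y.Ec, g ((sh hc a e).symm u) := by
  rw [sum_X hc a, sum_X hc a]
  refine sum_congr rfl fun w _ => ?_
  simp only [sum_shift_ofDig hc]
  exact shiftSum_symm _ _ _ _

/-- Two different tokens have a prescribed difference of hash values for at most a fraction
`2 / #Ec` of the seeds. -/
theorem hs_pair (hc : ∀ w, Y.c w ≤ Y.cm) (hn : Y.n ≤ Y.q ^ Y.nd) (a : ℕ)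
    (hN : 4 * Y.t * Y.off a ^ 2 ≤ Y.q) {u u' : Y.X a} (h : u ≠ u') (κ : Y.Ec) :
    #{s : Y.Sd | Y.hs a s u - Y.hs a s u' = κ} * Fintype.card Y.Ec ≤
      2 * Fintype.card Y.Sd := by
  have h1 : ∃ k < Y.off a, Y.dig a u k ≠ Y.dig a u' k := by
    by_contra hcon
    apply h
    apply dig_inj hc hn
    intro k hk
    by_contra hne
    exact hcon ⟨k, hk, hne⟩
  have h2 := card_hash (q := Y.q) (N := Y.off a) (m := 2 * Y.t) (by linarith) h1 κ
  have h3 : Fintype.card Y.Ec = Y.q ^ (2 * Y.t) := by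
    rw [Fintype.card_fun, ZMod.card, Fintype.card_fin]
  have h4 : Fintype.card Y.Sd = Y.q ^ (4 * (2 * Y.t)) := by
    rw [Fintype.card_fun, Fintype.card_fun, ZMod.card, Fintype.card_fin, Fintype.card_fin,
      ← pow_mul]
  rw [h3, h4]
  calc #{s : Y.Sd | Y.hs a s u - Y.hs a s u' = κ} * Y.q ^ (2 * Y.t)
      ≤ (2 * Y.q ^ (3 * (2 * Y.t))) * Y.q ^ (2 * Y.t) := Nat.mul_le_mul_right _ h2
    _ = 2 * Y.q ^ (4 * (2 * Y.t)) := by
      rw [mul_assoc, ← pow_add]
      congr 2
      ring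

end Lay

end Vale.Agent.P313.H205
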