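import Mathlib

/-!
The hash functions `ζ ↦ (y ζ(x) + y' ζ(x'))_o` on strings of digits modulo a prime `q`: two
different strings have a prescribed difference of hash values with probability at most
`2 / q ^ m`.
-/

namespace Vale.Agent.P313.H205

open Finset

variable {q : ℕ}

/-- The value at `x` of the polynomial with coefficients `ζ k`, `k < N`. -/
def evd (N : ℕ) (ζ : ℕ → ZMod q) (x : ZMod q) : ZMod q := ∑ k ∈ range N, ζ k * x ^ k

/-- One digit of the hash value of the string `ζ` for the seed digits `d`. -/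
def hash1 (N : ℕ) (d : Fin 4 → ZMod q) (ζ : ℕ → ZMod q) : ZMod q :=
  d 1 * evd N ζ (d 0) + d 3 * evd N ζ (d 2)

/-- The hash value of the string `ζ` for the seed `s`. -/
def hashv (N : ℕ) {m : ℕ} (s : Fin m → Fin 4 → ZMod q) (ζ : ℕ → ZMod q) : Fin m → ZMod q :=
  fun o => hash1 N (s o) ζ

theorem evd_sub (N : ℕ) (ζ ζ' : ℕ → ZMod q) (x : ZMod q) :
    evd N ζ x - evd N ζ' x = evd N (fun k => ζ k - ζ' k) x := by
  unfold evd
  rw [← sum_sub_distrib]
  exact sum_congr rfl fun k _ => by ring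

theorem hash1_sub (N : ℕ) (d : Fin 4 → ZMod q) (ζ ζ' : ℕ → ZMod q) :
    hash1 N d ζ - hash1 N d ζ' = hash1 N d (fun k => ζ k - ζ' k) := by
  unfold hash1
  rw [← evd_sub, ← evd_sub]
  ring

variable [hq : Fact q.Prime]

/-- A nonzero string has less than `N` roots. -/
theorem card_root_evd {N : ℕ} {ζ : ℕ → ZMod q} (h : ∃ k < N, ζ k ≠ 0) :
    #{x : ZMod q | evd N ζ x = 0} ≤ N := by
  obtain ⟨k₀, hk₀, h₀⟩ := h
  let P : Polynomial (ZMod q) := ∑ k ∈ range N, Polynomial.monomial k (ζ k)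
  have hev : ∀ x, P.eval x = evd N ζ x := by
    intro x
    simp [P, evd, Polynomial.eval_finsetSum]
  have hP : P ≠ 0 := by
    intro h
    have hc : P.coeff k₀ = ζ k₀ := by
      simp only [P, Polynomial.finsetSum_coeff, Polynomial.coeff_monomial]
      rw [sum_eq_single k₀]
      · simp
      · intro i _ hi
        rw [if_neg hi]
      · intro hn
        exact absurd (mem_range.2 hk₀) hn
    rw [h] at hc
    exact h₀ (by simpa using hc.symm)
  have hdeg : P.natDegree ≤ N := by
    refine Polynomial.natDegree_sum_le_of_forall_le _ _ fun i hi => ?_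
    exact (Polynomial.natDegree_monomial_le _).trans (mem_range.1 hi).le
  have hsub : (univ.filter fun x : ZMod q => evd N ζ x = 0) ⊆ P.roots.toFinset := by
    intro x hx
    simp only [mem_filter, mem_univ, true_and] at hx
    rw [Multiset.mem_toFinset, Polynomial.mem_roots hP, Polynomial.IsRoot.def, hev, hx]
  calc #{x : ZMod q | evd N ζ x = 0} ≤ #P.roots.toFinset := card_le_card hsub
    _ ≤ Multiset.card P.roots := Multiset.toFinset_card_le _
    _ ≤ P.natDegree := Polynomial.card_roots' P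
    _ ≤ N := hdeg

/-- A linear equation with a nonzero coefficient has at most `q` solutions. -/
theorem card_lin {a a' : ZMod q} (h : a ≠ 0 ∨ a' ≠ 0) (κ : ZMod q) :
    #{y : ZMod q × ZMod q | y.1 * a + y.2 * a' = κ} ≤ q := by
  have hc : #(univ : Finset (ZMod q)) = q := by rw [card_univ, ZMod.card]
  rcases h with h | h
  · refine (card_le_card_of_injOn (t := univ) (fun y => y.2) (fun y _ => mem_univ _) ?_).trans
      hc.le
    intro y hy y' hy' he
    simp only [coe_filter, mem_univ, true_and, Set.mem_ofPred_eq] at hy hy'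
    simp only at he
    have h1 : y.1 * a = y'.1 * a := by
      have : y.1 * a + y.2 * a' = y'.1 * a + y'.2 * a' := by rw [hy, hy']
      rw [he] at this
      exact add_right_cancel this
    exact Prod.ext (mul_right_cancel₀ h h1) he
  · refine (card_le_card_of_injOn (t := univ) (fun y => y.1) (fun y _ => mem_univ _) ?_).trans
      hc.le
    intro y hy y' hy' he
    simp only [coe_filter, mem_univ, true_and, Set.mem_ofPred_eq] at hy hy'
    simp only at he
    have h1 : y.2 * a' = y'.2 * a' := by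
      have : y.1 * a + y.2 * a' = y'.1 * a + y'.2 * a' := by rw [hy, hy']
      rw [he] at this
      exact add_left_cancel this
    exact Prod.ext he (mul_right_cancel₀ h h1)

/-- Four digits as two pairs. -/
def quad : (Fin 4 → ZMod q) ≃ (ZMod q × ZMod q) × (ZMod q × ZMod q) where
  toFun d := ((d 0, d 2), (d 1, d 3))
  invFun p := ![p.1.1, p.2.1, p.1.2, p.2.2]
  left_inv d := by
    funext i
    fin_cases i <;> rfl
  right_inv p := rfl

/-- One digit of the hash value of a nonzero string is nearly uniform. -/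
theorem card_hash1 {N : ℕ} {ζ : ℕ → ZMod q} (h : ∃ k < N, ζ k ≠ 0) (κ : ZMod q) :
    #{d : Fin 4 → ZMod q | hash1 N d ζ = κ} ≤ q ^ 3 + N ^ 2 * q ^ 2 := by
  classical
  have h1 : #{d : Fin 4 → ZMod q | hash1 N d ζ = κ} =
      #{p : (ZMod q × ZMod q) × (ZMod q × ZMod q) |
        p.2.1 * evd N ζ p.1.1 + p.2.2 * evd N ζ p.1.2 = κ} := by
    refine card_equiv quad fun d => ?_
    rw [mem_filter_univ, mem_filter_univ]
    rfl
  have h2 : #{p : (ZMod q × ZMod q) × (ZMod q × ZMod q) |
        p.2.1 * evd N ζ p.1.1 + p.2.2 * evd N ζ p.1.2 = κ} =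
      ∑ x : ZMod q × ZMod q, #{y : ZMod q × ZMod q |
        y.1 * evd N ζ x.1 + y.2 * evd N ζ x.2 = κ} := by
    simp_rw [card_filter]
    rw [Fintype.sum_prod_type]
  rw [h1, h2]
  have h3 : ∀ x : ZMod q × ZMod q, #{y : ZMod q × ZMod q |
        y.1 * evd N ζ x.1 + y.2 * evd N ζ x.2 = κ} ≤
      q + if evd N ζ x.1 = 0 ∧ evd N ζ x.2 = 0 then q ^ 2 else 0 := by
    intro x
    split_ifs with hx
    · refine (card_le_univ _).trans ?_
      simp only [Fintype.card_prod, ZMod.card]
      rw [← pow_two]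
      exact Nat.le_add_left _ _
    · refine (card_lin ?_ κ).trans (Nat.le_add_right _ _)
      by_contra hc
      apply hx
      constructor
      · by_contra h'
        exact hc (Or.inl h')
      · by_contra h'
        exact hc (Or.inr h')
  refine (sum_le_sum fun x _ => h3 x).trans ?_
  rw [sum_add_distrib, sum_const, card_univ, Fintype.card_prod, ZMod.card, ← sum_filter,
    sum_const, smul_eq_mul, smul_eq_mul]
  have h4 : #{x : ZMod q × ZMod q | evd N ζ x.1 = 0 ∧ evd N ζ x.2 = 0} ≤ N ^ 2 := by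
    have : (univ.filter fun x : ZMod q × ZMod q => evd N ζ x.1 = 0 ∧ evd N ζ x.2 = 0) =
        (univ.filter fun x : ZMod q => evd N ζ x = 0) ×ˢ
        (univ.filter fun x : ZMod q => evd N ζ x = 0) := by
      ext x
      simp
    rw [this, card_product, pow_two]
    exact Nat.mul_le_mul (card_root_evd h) (card_root_evd h)
  have h5 : q * q * q = q ^ 3 := by ring
  rw [h5]
  exact Nat.add_le_add_left (Nat.mul_le_mul_right _ h4) _

theorem pow_le_two_mul {q N m : ℕ} (hq : 2 * m * N ^ 2 ≤ q) :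
    (q ^ 3 + N ^ 2 * q ^ 2) ^ m ≤ 2 * q ^ (3 * m) := by
  rcases Nat.eq_zero_or_pos q with rfl | hq0
  · rcases Nat.eq_zero_or_pos m with rfl | hm
    · simp
    · have : (0 ^ 3 + N ^ 2 * 0 ^ 2) ^ m = 0 := by
        rw [zero_pow (by norm_num), zero_pow (by norm_num), mul_zero, add_zero, zero_pow hm.ne']
      rw [this]
      exact Nat.zero_le _
  have hq' : (0 : ℝ) < q := by exact_mod_cast hq0
  set x : ℝ := (N : ℝ) ^ 2 / q with hx
  have hx0 : 0 ≤ x := by positivity
  have hmx : (m : ℝ) * x ≤ 1 / 2 := by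
    rw [hx, mul_div_assoc', div_le_div_iff₀ hq' (by norm_num)]
    have : ((2 * m * N ^ 2 : ℕ) : ℝ) ≤ q := by exact_mod_cast hq
    push_cast at this
    linarith
  -- `(1 + x) ^ m ≤ 2`
  have h1 : (1 + x) ^ m ≤ 2 := by
    have hb : 1 + (m : ℝ) * (-x / (1 + x)) ≤ (1 + (-x / (1 + x))) ^ m := by
      apply one_add_mul_le_pow
      rw [le_div_iff₀ (by positivity)]
      linarith
    have he : 1 + (-x / (1 + x)) = 1 / (1 + x) := by
      field_simp
      ring
    rw [he, div_pow, one_pow] at hb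
    have hl : (1 : ℝ) / 2 ≤ 1 + (m : ℝ) * (-x / (1 + x)) := by
      have : x / (1 + x) ≤ x := by
        rw [div_le_iff₀ (by positivity)]
        nlinarith
      have h2 : (m : ℝ) * (x / (1 + x)) ≤ 1 / 2 :=
        (mul_le_mul_of_nonneg_left this (Nat.cast_nonneg m)).trans hmx
      have h3 : (m : ℝ) * (-x / (1 + x)) = -((m : ℝ) * (x / (1 + x))) := by ring
      rw [h3]
      linarith
    have hp : (0 : ℝ) < (1 + x) ^ m := by positivity
    have := hl.trans hb
    rw [div_le_div_iff₀ (by norm_num) hp] at this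
    linarith
  have h2 : ((q : ℝ) ^ 3 + (N : ℝ) ^ 2 * (q : ℝ) ^ 2) ^ m = (q : ℝ) ^ (3 * m) * (1 + x) ^ m := by
    have key : (q : ℝ) ^ 3 + (N : ℝ) ^ 2 * (q : ℝ) ^ 2 = (q : ℝ) ^ 3 * (1 + x) := by
      rw [hx]
      field_simp
    rw [key, mul_pow, ← pow_mul]
  have h3 : ((q : ℝ) ^ 3 + (N : ℝ) ^ 2 * (q : ℝ) ^ 2) ^ m ≤ 2 * (q : ℝ) ^ (3 * m) := by
    rw [h2, mul_comm]
    exact mul_le_mul_of_nonneg_right h1 (by positivity)
  exact_mod_cast h3

/-- Two different strings have a prescribed difference of hash values for at most a fraction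
`2 / q ^ m` of all seeds. -/
theorem card_hash {N m : ℕ} (hN : 2 * m * N ^ 2 ≤ q) {ζ ζ' : ℕ → ZMod q}
    (h : ∃ k < N, ζ k ≠ ζ' k) (κ : Fin m → ZMod q) :
    #{s : Fin m → Fin 4 → ZMod q | hashv N s ζ - hashv N s ζ' = κ} ≤ 2 * q ^ (3 * m) := by
  classical
  have h0 : ∃ k < N, (fun k => ζ k - ζ' k) k ≠ 0 := by
    obtain ⟨k, hk, h⟩ := h
    exact ⟨k, hk, sub_ne_zero.2 h⟩
  have h1 : (univ.filter fun s : Fin m → Fin 4 → ZMod q => hashv N s ζ - hashv N s ζ' = κ) =
      Fintype.piFinset fun o => univ.filter fun d : Fin 4 → ZMod q =>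
        hash1 N d (fun k => ζ k - ζ' k) = κ o := by
    ext s
    simp only [mem_filter, mem_univ, true_and, Fintype.mem_piFinset]
    rw [funext_iff]
    simp only [Pi.sub_apply, hashv, hash1_sub]
  rw [h1, Fintype.card_piFinset]
  calc ∏ o, #(univ.filter fun d : Fin 4 → ZMod q => hash1 N d (fun k => ζ k - ζ' k) = κ o)
      ≤ ∏ _o : Fin m, (q ^ 3 + N ^ 2 * q ^ 2) := prod_le_prod' fun o _ => card_hash1 h0 _
    _ = (q ^ 3 + N ^ 2 * q ^ 2) ^ m := by rw [prod_const, card_univ, Fintype.card_fin]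
    _ ≤ 2 * q ^ (3 * m) := pow_le_two_mul hN

end Vale.Agent.P313.H205
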