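import Vale.Agent.P313.H899.Hop
import Vale.Agent.P313.BP.Inst

/-!
The hop of tokens and its children, for a valid datum.
-/

namespace Vale.Agent.P313.H205

open Finset BP H136

variable {p : Par2} [hq0 : NeZero p.q]

omit hq0 in
theorem rowS_lay {d : SD} (hr : ∀ v < p.n, ∑ x ∈ range p.n, d.A v x = p.q ^ p.b)
    (hb : ∀ v < p.n, p.b ≤ d.c v) (hc : ∀ v < p.n, d.c v ≤ p.cmax) :
    ∀ v < p.n, H899.rowS p.n (H899.FD p.toPar d) v = (lay p d).q ^ (lay p d).c v := by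
  intro v hv
  refine (H899.rowS_FD (hr v hv) (hb v hv)).trans ?_
  change p.q ^ d.c v = p.q ^ min (d.c v) p.cmax
  rw [min_eq_left (hc v hv)]

theorem pow_lay_pos (d : SD) : ∀ v < p.n, 0 < (lay p d).q ^ (lay p d).c v :=
  fun _ _ => Nat.pow_pos (Nat.pos_of_ne_zero (NeZero.ne p.q))

/-- The hop of tokens is the base map. -/
theorem hopT_eq {d : SD} (hr : ∀ v < p.n, ∑ x ∈ range p.n, d.A v x = p.q ^ p.b)
    (hb : ∀ v < p.n, p.b ≤ d.c v) (hc : ∀ v < p.n, d.c v ≤ p.cmax) :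
    hopT p d = H899.T0 (n := p.n) (F := H899.FD p.toPar d)
      (H := fun v => (lay p d).q ^ (lay p d).c v) (rowS_lay hr hb hc) (pow_lay_pos d) := by
  funext u
  obtain ⟨v, z⟩ := u
  have hz : (z : ℕ) < H899.rowS p.n (H899.FD p.toPar d) v := by
    rw [rowS_lay hr hb hc v v.2]
    exact z.2
  have h1 : (hopF p.toPar d v z).1 < p.n := by
    rw [H899.hopF_fst]
    exact H899.fx_lt hz
  refine H899.tok_ext (n := p.n) (H := fun v => (lay p d).q ^ (lay p d).c v) ?_ ?_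
  · unfold hopT
    rw [dif_pos h1]
    exact H899.hopF_fst _ _ _ _
  · unfold hopT
    rw [dif_pos h1]
    change (hopF p.toPar d v z).2 % p.q ^ min (d.c (hopF p.toPar d v z).1) p.cmax = _
    rw [H899.hopF_fst, H899.hopF_snd]
    rfl

theorem nc_congr {n : ℕ} {F : ℕ → ℕ → ℕ} {H H' : ℕ → ℕ} {x y : ℕ} (h : H x = H' x) :
    H899.nc n F H x y = H899.nc n F H' x y := by
  unfold H899.nc
  rw [h]

theorem dnv_congr {n : ℕ} {F : ℕ → ℕ → ℕ} {H H' : ℕ → ℕ} {x y j : ℕ} (h : H x = H' x) :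
    H899.dnv n F H x y j = H899.dnv n F H' x y j := by
  unfold H899.dnv
  rw [h]

theorem dnz_congr {n : ℕ} {F : ℕ → ℕ → ℕ} {H H' : ℕ → ℕ} {x y j : ℕ} (h : H x = H' x) :
    H899.dnz n F H x y j = H899.dnz n F H' x y j := by
  unfold H899.dnz
  rw [h]

theorem sum_child {n : ℕ} {F : ℕ → ℕ → ℕ} {H : ℕ → ℕ} (hF : ∀ v < n, H899.rowS n F v = H v)
    (hH : ∀ v < n, 0 < H v) (y : H899.Tok n H) (s : Finset (H899.Tok n H))
    (hs : ∀ u, u ∈ s ↔ H899.T0 hF hH u = y) (G : H899.Tok n H → ℕ) :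
    ∑ j, G (H899.child hF hH y j) = ∑ u ∈ s, G u := by
  classical
  have h := (H899.childEquiv hF hH y).sum_comp
    (fun u : {u : H899.Tok n H // H899.T0 hF hH u = y} => G u.1)
  exact h.trans (sum_subtype s hs G).symm

/-- A sum over the tokens sent to a given token is the sum over the children. -/
theorem sum_T0 {n : ℕ} {F : ℕ → ℕ → ℕ} {H H' : ℕ → ℕ} (hF : ∀ v < n, H899.rowS n F v = H v)
    (hH : ∀ v < n, 0 < H v) {D0 : ℕ → ℕ → H899.Tok n H}
    (hD : ∀ v z (hv : v < n) (hz : z < H v), D0 v z = ⟨⟨v, hv⟩, ⟨z, hz⟩⟩)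
    {x z : ℕ} (hx : x < n) (hz : z < H x) (hH' : H' x = H x) (s : Finset (H899.Tok n H))
    (hs : ∀ u, u ∈ s ↔ H899.T0 hF hH u = D0 x z) (G : H899.Tok n H → ℕ) :
    ∑ j ∈ range (H899.nc n F H' x z), G (D0 (H899.dnv n F H' x z j) (H899.dnz n F H' x z j)) =
      ∑ u ∈ s, G u := by
  rw [nc_congr hH', sum_range]
  have e4 : ∀ j : Fin (H899.nc n F H x z),
      D0 (H899.dnv n F H' x z j) (H899.dnz n F H' x z j) =
      H899.child hF hH (⟨⟨x, hx⟩, ⟨z, hz⟩⟩ : H899.Tok n H) j := by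
    intro j
    rw [dnv_congr hH', dnz_congr hH']
    have h1 := H899.dnv_lt (hH x hx) j.2
    have h2 := H899.dnz_lt hx (hH x hx) j.2
    rw [hF _ h1] at h2
    exact hD _ _ h1 h2
  rw [hD x z hx hz] at hs
  rw [← sum_child hF hH _ s hs]
  exact sum_congr rfl fun j _ => by rw [e4]

/-- A sum over the tokens whose hop is a given token is the sum over the children. -/
theorem sum_hop {d : SD} (hr : ∀ v < p.n, ∑ x ∈ range p.n, d.A v x = p.q ^ p.b)
    (hb : ∀ v < p.n, p.b ≤ d.c v) (hc : ∀ v < p.n, d.c v ≤ p.cmax)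
    {D0 : ℕ → ℕ → (lay p d).X0}
    (hD : ∀ v z (hv : v < p.n) (hz : z < (lay p d).q ^ (lay p d).c v),
      D0 v z = ⟨⟨v, hv⟩, ⟨z, hz⟩⟩)
    {x z : ℕ} (hx : x < p.n) (hz : z < p.q ^ d.c x) (s : Finset (lay p d).X0)
    (hs : ∀ u, u ∈ s ↔ hopT p d u = D0 x z) (G : (lay p d).X0 → ℕ) :
    ∑ j ∈ range (H899.nc p.n (H899.FD p.toPar d) (fun x => p.q ^ d.c x) x z),
      G (D0 (H899.dnv p.n (H899.FD p.toPar d) (fun x => p.q ^ d.c x) x z j)
        (H899.dnz p.n (H899.FD p.toPar d) (fun x => p.q ^ d.c x) x z j)) =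
      ∑ u ∈ s, G u := by
  have hcx : p.q ^ d.c x = (lay p d).q ^ (lay p d).c x := by
    change p.q ^ d.c x = p.q ^ min (d.c x) p.cmax
    rw [min_eq_left (hc x hx)]
  have hz' : z < (lay p d).q ^ (lay p d).c x := by rwa [← hcx]
  rw [hopT_eq hr hb hc] at hs
  exact sum_T0 (rowS_lay hr hb hc) (pow_lay_pos (p := p) d) hD hx hz' hcx s hs G

end Vale.Agent.P313.H205
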