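import Vale.Agent.P313.H205.Shift
import Vale.Agent.P313.H205.Hash
import Vale.Agent.P313.H136.Lev

/-!
The concrete levels: tokens with a state `w`, a number `z < q ^ c w` and labels; their digit
strings; shifts of the digits; hash values.
-/

namespace Vale.Agent.P313.H205

open Finset

/-! ### Digits of natural numbers -/

theorem sum_digits_lt {q : ℕ} {d : ℕ → ℕ} (c : ℕ) (hd : ∀ k < c, d k < q) :
    ∑ k ∈ range c, d k * q ^ k < q ^ c := by
  induction c with
  | zero => simp
  | succ c ih =>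
    rw [sum_range_succ, pow_succ]
    have h1 := ih fun k hk => hd k (by omega)
    have h2 := hd c (by omega)
    calc ∑ k ∈ range c, d k * q ^ k + d c * q ^ c < q ^ c + d c * q ^ c := by omega
      _ = (d c + 1) * q ^ c := by ring
      _ ≤ q * q ^ c := Nat.mul_le_mul_right _ h2
      _ = q ^ c * q := mul_comm _ _

theorem div_mod_sum {q : ℕ} (hq : 1 ≤ q) {d : ℕ → ℕ} (c : ℕ) (hd : ∀ k < c, d k < q) {j : ℕ}
    (hj : j < c) : (∑ k ∈ range c, d k * q ^ k) / q ^ j % q = d j := by
  have hqj : 0 < q ^ j := by positivity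
  have h1 : ∑ k ∈ range c, d k * q ^ k =
      ∑ k ∈ range j, d k * q ^ k + q ^ j * (d j + q * ∑ k ∈ range (c - j - 1), d (j + 1 + k) * q ^ k) := by
    have hc : c = j + 1 + (c - j - 1) := by omega
    conv_lhs => rw [hc, sum_range_add, sum_range_succ]
    rw [mul_add, add_assoc, mul_sum, mul_sum]
    congr 1
    congr 1
    · ring
    · refine sum_congr rfl fun k _ => ?_
      rw [pow_add, pow_succ]
      ring
  rw [h1, Nat.add_mul_div_left _ _ hqj,
    Nat.div_eq_of_lt (sum_digits_lt j fun k hk => hd k (by omega)), zero_add,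
    Nat.add_mul_mod_self_left, Nat.mod_eq_of_lt (hd j hj)]

theorem sum_digits_self {q : ℕ} (hq : 1 ≤ q) (c : ℕ) {z : ℕ} (hz : z < q ^ c) :
    ∑ k ∈ range c, (z / q ^ k % q) * q ^ k = z := by
  induction c generalizing z with
  | zero =>
    rw [pow_zero] at hz
    simp only [range_zero, sum_empty]
    omega
  | succ c ih =>
    have h1 : z / q < q ^ c := by
      rw [Nat.div_lt_iff_lt_mul (by omega)]
      rwa [← pow_succ]
    have h2 := ih h1
    rw [sum_range_succ']
    have h3 : ∑ k ∈ range c, z / q ^ (k + 1) % q * q ^ (k + 1) = q * (z / q) := by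
      conv_rhs => rw [← h2, mul_sum]
      refine sum_congr rfl fun k _ => ?_
      rw [Nat.div_div_eq_div_mul, pow_succ, mul_comm (q ^ k) q]
      ring
    rw [h3]
    simp only [pow_zero, Nat.div_one, mul_one]
    have := Nat.div_add_mod z q
    omega

/-- The parameters of the tokens: a prime `q`, the number `t` of pairs of a shift code,
the number `n` of states, the number `c w ≤ cm` of digits of `z` in state `w`, the
number `nd` of digits for the states. -/
structure Lay where
  q : ℕ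
  t : ℕ
  n : ℕ
  c : ℕ → ℕ
  cm : ℕ
  nd : ℕ

namespace Lay

variable (Y : Lay)

/-- The place of the first digit of label `a`. -/
def off (a : ℕ) : ℕ := Y.cm + Y.nd + 10 * Y.t * a

/-- The shift codes. -/
abbrev Ec : Type := Fin (2 * Y.t) → ZMod Y.q

/-- The hash seeds. -/
abbrev Sd : Type := Fin (2 * Y.t) → Fin 4 → ZMod Y.q

/-- The tokens without labels. -/
abbrev X0 : Type := Σ w : Fin Y.n, Fin (Y.q ^ Y.c w)

/-- The tokens with `a` labels. -/
abbrev X (a : ℕ) : Type := H136.Tok Y.X0 (Y.Ec × Y.Sd) a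

/-- The state of a token. -/
def st : (a : ℕ) → Y.X a → Fin Y.n
  | 0, u => u.1
  | a + 1, u => st a u.1

/-- The number `z` of a token. -/
def zz : (a : ℕ) → Y.X a → ℕ
  | 0, u => u.2.1
  | a + 1, u => zz a u.1

/-- Digit `j` of a label. -/
def labDig (l : Y.Ec × Y.Sd) (j : ℕ) : ZMod Y.q :=
  if h : j < 2 * Y.t then l.1 ⟨j, h⟩
  else if h' : (j - 2 * Y.t) / 4 < 2 * Y.t then
    l.2 ⟨(j - 2 * Y.t) / 4, h'⟩ ⟨(j - 2 * Y.t) % 4, Nat.mod_lt _ (by norm_num)⟩
  else 0

/-- The label with given digits. -/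
def labOf (d : ℕ → ZMod Y.q) : Y.Ec × Y.Sd :=
  (fun i => d i, fun o i => d (2 * Y.t + 4 * o + i))

/-- The digit string of a token. -/
def dig : (a : ℕ) → Y.X a → ℕ → ZMod Y.q
  | 0, u, k =>
    if k < Y.cm then (if k < Y.c u.1 then ((u.2.1 / Y.q ^ k : ℕ) : ZMod Y.q) else 0)
    else if k < Y.cm + Y.nd then ((u.1.1 / Y.q ^ (k - Y.cm) : ℕ) : ZMod Y.q)
    else 0
  | a + 1, u, k =>
    if Y.off a ≤ k ∧ k < Y.off (a + 1) then Y.labDig u.2 (k - Y.off a) else dig a u.1 k

/-- The places which are shifted at level `a` in state `w`. -/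
def pl (a w : ℕ) : Finset ℕ := range (Y.c w) ∪ Ico (Y.off 0) (Y.off a)

/-- The token with state `w` and given digits. -/
def ofDig [NeZero Y.q] : (a : ℕ) → (w : Fin Y.n) → (ℕ → ZMod Y.q) → Y.X a
  | 0, w, ζ => ⟨w, ⟨∑ k ∈ range (Y.c w), (ζ k).val * Y.q ^ k,
      sum_digits_lt _ fun _ _ => ZMod.val_lt _⟩⟩
  | a + 1, w, ζ => (ofDig a w ζ, Y.labOf fun j => ζ (Y.off a + j))

variable {Y}

theorem off_succ (a : ℕ) : Y.off (a + 1) = Y.off a + 10 * Y.t := by
  unfold off
  ring

theorem off_mono {a b : ℕ} (h : a ≤ b) : Y.off a ≤ Y.off b := by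
  unfold off
  have := Nat.mul_le_mul_left (10 * Y.t) h
  omega

theorem labOf_labDig (l : Y.Ec × Y.Sd) : Y.labOf (Y.labDig l) = l := by
  obtain ⟨e, s⟩ := l
  unfold labOf labDig
  ext1
  · funext i
    simp
  · funext o i
    have h1 : ¬ (2 * Y.t + 4 * o.1 + i.1 < 2 * Y.t) := by omega
    have h2 : (2 * Y.t + 4 * o.1 + i.1 - 2 * Y.t) / 4 = o.1 := by omega
    have h3 : (2 * Y.t + 4 * o.1 + i.1 - 2 * Y.t) % 4 = i.1 := by omega
    simp only [h1, h2, h3, dif_neg, not_false_eq_true, o.2, dif_pos, Fin.eta]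

theorem labDig_labOf (d : ℕ → ZMod Y.q) {j : ℕ} (hj : j < 10 * Y.t) :
    Y.labDig (Y.labOf d) j = d j := by
  unfold labOf labDig
  split_ifs with h1 h2
  · rfl
  · show d _ = d j
    congr 1
    simp only
    omega
  · omega

theorem pl_mono {a b : ℕ} (h : a ≤ b) (w : ℕ) : Y.pl a w ⊆ Y.pl b w := by
  intro k hk
  unfold pl at *
  rcases mem_union.1 hk with h' | h'
  · exact mem_union_left _ h'
  · exact mem_union_right _ (mem_Ico.2 ⟨(mem_Ico.1 h').1, (mem_Ico.1 h').2.trans_le (off_mono h)⟩)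

/-- The digits which are not shifted depend on the state only. -/
theorem dig_of_notMem : ∀ (a : ℕ) (u : Y.X a) {k : ℕ}, k ∉ Y.pl a (Y.st a u) →
    Y.dig a u k = if Y.cm ≤ k ∧ k < Y.cm + Y.nd then (((Y.st a u).1 / Y.q ^ (k - Y.cm) : ℕ) : ZMod Y.q)
      else 0 := by
  intro a
  induction a with
  | zero =>
    intro u k hk
    have hk' : ¬ k < Y.c (Y.st 0 u) := by
      intro h
      exact hk (mem_union_left _ (mem_range.2 h))
    unfold dig st at *
    split_ifs <;> first | rfl | omega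
  | succ a ih =>
    intro u k hk
    have h1 : ¬ (Y.off a ≤ k ∧ k < Y.off (a + 1)) := by
      intro h
      refine hk (mem_union_right _ (mem_Ico.2 ⟨?_, h.2⟩))
      exact (off_mono (Nat.zero_le a)).trans h.1
    show (if Y.off a ≤ k ∧ k < Y.off (a + 1) then _ else Y.dig a u.1 k) = _
    rw [if_neg h1]
    exact ih _ fun h => hk (pl_mono (Nat.le_succ a) _ h)

variable [NeZero Y.q]

@[simp] theorem st_ofDig (a : ℕ) (w : Fin Y.n) (ζ : ℕ → ZMod Y.q) :
    Y.st a (Y.ofDig a w ζ) = w := by
  induction a with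
  | zero => rfl
  | succ a ih => exact ih

theorem dig_ofDig (hc : ∀ w, Y.c w ≤ Y.cm) : ∀ (a : ℕ) (w : Fin Y.n) (ζ : ℕ → ZMod Y.q) {k : ℕ},
    k ∈ Y.pl a w → Y.dig a (Y.ofDig a w ζ) k = ζ k := by
  intro a
  induction a with
  | zero =>
    intro w ζ k hk
    have hk' : k < Y.c w := by
      rcases mem_union.1 hk with h | h
      · exact mem_range.1 h
      · rw [mem_Ico] at h
        omega
    have := hc w
    have hq1 : 1 ≤ Y.q := NeZero.one_le
    show (if k < Y.cm then (if k < Y.c w then _ else _) else _) = ζ k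
    rw [if_pos (by omega), if_pos hk']
    show ((((∑ k ∈ range (Y.c w), (ζ k).val * Y.q ^ k) / Y.q ^ k : ℕ)) : ZMod Y.q) = ζ k
    rw [← ZMod.natCast_mod, div_mod_sum hq1 _ (fun _ _ => ZMod.val_lt _) hk', ZMod.natCast_val,
      ZMod.cast_id', id_eq]
  | succ a ih =>
    intro w ζ k hk
    show (if Y.off a ≤ k ∧ k < Y.off (a + 1) then
      Y.labDig (Y.labOf fun j => ζ (Y.off a + j)) (k - Y.off a) else Y.dig a (Y.ofDig a w ζ) k) = ζ k
    split_ifs with h
    · rw [off_succ] at h
      rw [labDig_labOf _ (by omega)]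
      congr 1
      omega
    · apply ih
      unfold pl at *
      rcases mem_union.1 hk with h' | h'
      · exact mem_union_left _ h'
      · rw [mem_Ico] at h'
        exact mem_union_right _ (mem_Ico.2 ⟨h'.1, by omega⟩)

theorem ofDig_congr : ∀ (a : ℕ) (w : Fin Y.n) {ζ ζ' : ℕ → ZMod Y.q},
    (∀ k ∈ Y.pl a w, ζ k = ζ' k) → Y.ofDig a w ζ = Y.ofDig a w ζ' := by
  intro a
  induction a with
  | zero =>
    intro w ζ ζ' h
    unfold ofDig
    congr 2
    refine sum_congr rfl fun k hk => ?_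
    rw [h k (mem_union_left _ hk)]
  | succ a ih =>
    intro w ζ ζ' h
    unfold ofDig
    have h1 : Y.ofDig a w ζ = Y.ofDig a w ζ' := by
      apply ih
      intro k hk
      apply h
      unfold pl at *
      rcases mem_union.1 hk with h' | h'
      · exact mem_union_left _ h'
      · refine mem_union_right _ (mem_Ico.2 ⟨(mem_Ico.1 h').1, (mem_Ico.1 h').2.trans_le ?_⟩)
        exact off_mono (Nat.le_succ a)
    have h2 : ∀ j < 10 * Y.t, ζ (Y.off a + j) = ζ' (Y.off a + j) := by
      intro j hj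
      apply h
      refine mem_union_right _ (mem_Ico.2 ⟨?_, ?_⟩)
      · have := off_mono (Y := Y) (Nat.zero_le a)
        omega
      · rw [off_succ]
        omega
    rw [h1]
    congr 1
    unfold labOf
    congr 1
    · funext i
      exact h2 _ (by omega)
    · funext o i
      exact h2 _ (by omega)

theorem ofDig_dig (hc : ∀ w, Y.c w ≤ Y.cm) : ∀ (a : ℕ) (u : Y.X a),
    Y.ofDig a (Y.st a u) (Y.dig a u) = u := by
  intro a
  induction a with
  | zero =>
    rintro ⟨w, z⟩
    have hq1 : 1 ≤ Y.q := NeZero.one_le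
    have hcw := hc w
    show (⟨w, ⟨∑ k ∈ range (Y.c w), (Y.dig 0 ⟨w, z⟩ k).val * Y.q ^ k, _⟩⟩ : Y.X0) = ⟨w, z⟩
    congr 1
    apply Fin.ext
    simp only
    conv_rhs => rw [← sum_digits_self hq1 (Y.c w) z.2]
    refine sum_congr rfl fun k hk => ?_
    have hk' : k < Y.c w := mem_range.1 hk
    congr 1
    show (if k < Y.cm then (if k < Y.c w then ((z.1 / Y.q ^ k : ℕ) : ZMod Y.q) else 0) else _).val = _
    rw [if_pos (by omega), if_pos hk', ZMod.val_natCast]
  | succ a ih =>
    intro u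
    show (Y.ofDig a (Y.st a u.1) (Y.dig (a + 1) u), Y.labOf fun j => Y.dig (a + 1) u (Y.off a + j)) = u
    refine Prod.ext ?_ ?_
    · simp only
      conv_rhs => rw [← ih u.1]
      apply ofDig_congr
      intro k hk
      show (if Y.off a ≤ k ∧ k < Y.off (a + 1) then _ else Y.dig a u.1 k) = _
      rw [if_neg]
      intro h
      unfold pl at hk
      rcases mem_union.1 hk with h' | h'
      · have h1 := hc (Y.st a u.1)
        have h2 := mem_range.1 h'
        have h3 : Y.cm ≤ Y.off a := by unfold off; omega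
        omega
      · rw [mem_Ico] at h'
        omega
    · simp only
      conv_rhs => rw [← labOf_labDig u.2]
      have h2 : ∀ j < 10 * Y.t, Y.dig (a + 1) u (Y.off a + j) = Y.labDig u.2 j := by
        intro j hj
        show (if Y.off a ≤ Y.off a + j ∧ Y.off a + j < Y.off (a + 1) then
          Y.labDig u.2 (Y.off a + j - Y.off a) else _) = _
        rw [if_pos ⟨by omega, by rw [off_succ]; omega⟩, Nat.add_sub_cancel_left]
      unfold labOf
      congr 1
      · funext i
        exact h2 _ (by omega)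
      · funext o i
        exact h2 _ (by omega)

end Lay

end Vale.Agent.P313.H205
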