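import Vale.Agent.P313.CT.Lib
import Vale.Agent.P313.H205.Dec

/-!
The mixing step and its inverse: the functions which compute the new digits.
-/

namespace Vale.Agent.P313.H205

open Finset CT

/-! ### Functions of the input -/

/-- `y ^ k % q` for `q > 0`. -/
def pmod (q y k : ℕ) : ℕ := y ^ k % (q + (1 - q))

theorem pmod_eq {q : ℕ} (hq : 1 ≤ q) (y k : ℕ) : pmod q y k = y ^ k % q := by
  unfold pmod
  rw [Nat.sub_eq_zero_of_le hq, add_zero]

theorem pmod_iter (q y : ℕ) : ∀ k,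
    (fun r => r * y % (q + (1 - q)))^[k] (1 % (q + (1 - q))) = pmod q y k := by
  intro k
  unfold pmod
  induction k with
  | zero => rfl
  | succ k ih => rw [Function.iterate_succ_apply', ih, Nat.mod_mul_mod, pow_succ]

/-- Digit `k` of the shift with the code in block `a`. -/
def bF (I : TS.Inp) (a k : ℕ) : ℕ :=
  (∑ j ∈ range 31, cell I (310 * a + (2 * j + 1)) *
    pmod (stat I 1) (cell I (310 * a + 2 * j)) k) % stat I 1

/-- Digit `k` of the string of the token. -/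
def dgF (I : TS.Inp) (x z k : ℕ) : ℕ :=
  if k < stat I 11 then z / stat I 1 ^ k % stat I 1
  else if k < stat I 11 + stat I 12 then x / stat I 1 ^ (k - stat I 11) % stat I 1
  else cell I (k - (stat I 11 + stat I 12))

/-- The polynomial with the digits of the token. -/
def evF (I : TS.Inp) (a x z y : ℕ) : ℕ :=
  (∑ k ∈ range (stat I 11 + stat I 12 + 310 * a), dgF I x z k * pmod (stat I 1) y k) % stat I 1

/-- Digit `o` of the hash value. -/
def hF (I : TS.Inp) (a x z o : ℕ) : ℕ :=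
  (cell I (310 * a + (62 + 4 * o + 1)) * evF I a x z (cell I (310 * a + (62 + 4 * o))) +
    cell I (310 * a + (62 + 4 * o + 3)) *
      evF I a x z (cell I (310 * a + (62 + 4 * o + 2)))) % stat I 1

/-- The sign: `g` or `q - g`. -/
def sgF (I : TS.Inp) (s g : ℕ) : ℕ := if s = 0 then g else stat I 1 - g

/-- The contribution of digit `k` to the new number `z`. -/
def zG (I : TS.Inp) (s a z k : ℕ) : ℕ :=
  ((z / stat I 1 ^ k % stat I 1 + sgF I s (bF I a k)) % stat I 1) *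
    min (stat I 1 ^ k) (bnd I + 1)

/-- The new number `z`. -/
def zF (I : TS.Inp) (s a z c : ℕ) : ℕ := ∑ k ∈ range c, zG I s a z k

/-- The new digit of cell `p`. -/
def tF (I : TS.Inp) (s a p : ℕ) : ℕ :=
  (cell I p + sgF I s (bF I a (stat I 11 + stat I 12 + p))) % stat I 1

/-- The new digit number `o` of the code in block `a`. -/
def eF (I : TS.Inp) (s a x z o : ℕ) : ℕ :=
  (cell I (310 * a + o) + sgF I s (hF I a x z o)) % stat I 1

/-- The number of digits in state `x`, asked from the data level of the stage. -/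
def cF (I : TS.Inp) (l x : ℕ) : ℕ :=
  ask I (l / stat I 19 * stat I 19) (Nat.pair 1 (Nat.pair x 0))

section lf

variable {k : ℕ}

theorem lf_pmod {f g n : TS.Fn k} (hf : TS.LF f) (hg : TS.LF g) (hn : TS.LF n) :
    TS.LF (fun I a => pmod (f I a) (g I a) (n I a)) := by
  have hm : TS.LF (fun I a => f I a + (1 - f I a)) := hf.add ((TS.LF.const 1).sub hf)
  have h1 := TS.LF.iterate (k := k)
    (f := fun I b => b 0 * g I (Fin.tail b) % (f I (Fin.tail b) + (1 - f I (Fin.tail b))))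
    (g := fun I a => 1 % (f I a + (1 - f I a))) (n := n)
    (((TS.LF.proj 0).mul hg.weak).mod hm.weak) ((TS.LF.const 1).mod hm) hn
    (fun I a => f I a + (1 - f I a)) hm.pb (fun I a i _ => by
      simp only [Fin.tail_cons, Fin.cons_zero]
      rw [pmod_iter]
      exact (Nat.mod_lt _ (by omega)).le)
  refine h1.congr (fun I a => ?_)
  simp only [Fin.tail_cons, Fin.cons_zero]
  rw [pmod_iter]

theorem lf_sumR {n : TS.Fn k} {g : TS.Inp → (Fin k → ℕ) → ℕ → ℕ} (hn : TS.LF n)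
    (hg : TS.LF (fun x b => g x (Fin.tail b) (b 0) : TS.Fn (k + 1))) :
    TS.LF (fun x a => ∑ i ∈ range (n x a), g x a i) :=
  (TS.LF.sum hg hn).congr fun x a => by simp only [Fin.tail_cons, Fin.cons_zero]

theorem lf_bF {f g : TS.Fn k} (hf : TS.LF f) (hg : TS.LF g) :
    TS.LF (fun I a => bF I (f I a) (g I a)) := by
  unfold bF
  refine TS.LF.mod (lf_sumR (g := fun I a j => cell I (310 * f I a + (2 * j + 1)) *
    pmod (stat I 1) (cell I (310 * f I a + 2 * j)) (g I a)) (TS.LF.const 31) ?_)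
    (lf_stat (TS.LF.const 1))
  exact (lf_cell (((TS.LF.const 310).mul hf.weak).add
    (((TS.LF.const 2).mul (TS.LF.proj 0)).add (TS.LF.const 1)))).mul
    (lf_pmod (lf_stat (TS.LF.const 1)) (lf_cell (((TS.LF.const 310).mul hf.weak).add
      ((TS.LF.const 2).mul (TS.LF.proj 0)))) hg.weak)

theorem lf_dgF {f g h : TS.Fn k} (hf : TS.LF f) (hg : TS.LF g) (hh : TS.LF h) :
    TS.LF (fun I a => dgF I (f I a) (g I a) (h I a)) := by
  unfold dgF
  have s1 : TS.LF (fun I _ => stat I 1 : TS.Fn k) := lf_stat (TS.LF.const 1)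
  have s11 : TS.LF (fun I _ => stat I 11 : TS.Fn k) := lf_stat (TS.LF.const 11)
  have s12 : TS.LF (fun I _ => stat I 12 : TS.Fn k) := lf_stat (TS.LF.const 12)
  exact TS.LF.ite (TS.LFP.lt hh s11) ((TS.LF.divPow s1 hg hh).mod s1)
    (TS.LF.ite (TS.LFP.lt hh (s11.add s12)) ((TS.LF.divPow s1 hf (hh.sub s11)).mod s1)
      (lf_cell (hh.sub (s11.add s12))))

theorem lf_evF {f g h u : TS.Fn k} (hf : TS.LF f) (hg : TS.LF g) (hh : TS.LF h) (hu : TS.LF u) :
    TS.LF (fun I a => evF I (f I a) (g I a) (h I a) (u I a)) := by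
  unfold evF
  refine TS.LF.mod (lf_sumR (n := fun I a => stat I 11 + stat I 12 + 310 * f I a)
    (g := fun I a j => dgF I (g I a) (h I a) j * pmod (stat I 1) (u I a) j)
    (((lf_stat (TS.LF.const 11)).add (lf_stat (TS.LF.const 12))).add
      ((TS.LF.const 310).mul hf)) ?_) (lf_stat (TS.LF.const 1))
  exact (lf_dgF hg.weak hh.weak (TS.LF.proj 0)).mul
    (lf_pmod (lf_stat (TS.LF.const 1)) hu.weak (TS.LF.proj 0))

theorem lf_hF {f g h u : TS.Fn k} (hf : TS.LF f) (hg : TS.LF g) (hh : TS.LF h) (hu : TS.LF u) :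
    TS.LF (fun I a => hF I (f I a) (g I a) (h I a) (u I a)) := by
  unfold hF
  have c : ∀ i : ℕ, TS.LF (fun I a => cell I (310 * f I a + (62 + 4 * u I a + i)) : TS.Fn k) :=
    fun i => lf_cell (((TS.LF.const 310).mul hf).add
      (((TS.LF.const 62).add ((TS.LF.const 4).mul hu)).add (TS.LF.const i)))
  exact (((c 1).mul (lf_evF hf hg hh (c 0))).add
    ((c 3).mul (lf_evF hf hg hh (c 2)))).mod (lf_stat (TS.LF.const 1))

theorem lf_sgF {f g : TS.Fn k} (hf : TS.LF f) (hg : TS.LF g) :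
    TS.LF (fun I a => sgF I (f I a) (g I a)) := by
  unfold sgF
  exact TS.LF.ite (TS.LFP.eq hf (TS.LF.const 0)) hg ((lf_stat (TS.LF.const 1)).sub hg)

theorem lf_zG {f g h u : TS.Fn k} (hf : TS.LF f) (hg : TS.LF g) (hh : TS.LF h) (hu : TS.LF u) :
    TS.LF (fun I a => zG I (f I a) (g I a) (h I a) (u I a)) := by
  have s1 : TS.LF (fun I _ => stat I 1 : TS.Fn k) := lf_stat (TS.LF.const 1)
  have e1 : TS.LF (fun I b => h I b / stat I 1 ^ u I b : TS.Fn k) :=
    TS.LF.divPow s1 hh hu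
  have e2 : TS.LF (fun I b => sgF I (f I b) (bF I (g I b) (u I b)) : TS.Fn k) :=
    lf_sgF hf (lf_bF hg hu)
  have e3 : TS.LF (fun I b => min (stat I 1 ^ u I b) (bnd I + 1) : TS.Fn k) :=
    TS.LF.powMin s1 hu lf_bnd
  exact (((e1.mod s1).add e2).mod s1).mul e3

theorem lf_zF {f g h u : TS.Fn k} (hf : TS.LF f) (hg : TS.LF g) (hh : TS.LF h) (hu : TS.LF u) :
    TS.LF (fun I a => zF I (f I a) (g I a) (h I a) (u I a)) := by
  unfold zF
  exact lf_sumR (g := fun I a j => zG I (f I a) (g I a) (h I a) j) hu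
    (lf_zG hf.weak hg.weak hh.weak (TS.LF.proj 0))

theorem lf_tF {f g h : TS.Fn k} (hf : TS.LF f) (hg : TS.LF g) (hh : TS.LF h) :
    TS.LF (fun I a => tF I (f I a) (g I a) (h I a)) := by
  unfold tF
  exact ((lf_cell hh).add (lf_sgF hf (lf_bF hg (((lf_stat (TS.LF.const 11)).add
    (lf_stat (TS.LF.const 12))).add hh)))).mod (lf_stat (TS.LF.const 1))

theorem lf_eF {f g h u w : TS.Fn k} (hf : TS.LF f) (hg : TS.LF g) (hh : TS.LF h) (hu : TS.LF u)
    (hw : TS.LF w) : TS.LF (fun I a => eF I (f I a) (g I a) (h I a) (u I a) (w I a)) := by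
  unfold eF
  exact ((lf_cell (((TS.LF.const 310).mul hg).add hw)).add
    (lf_sgF hf (lf_hF hg hh hu hw))).mod (lf_stat (TS.LF.const 1))

theorem lf_cF {f g : TS.Fn k} (hf : TS.LF f) (hg : TS.LF g) :
    TS.LF (fun I a => cF I (f I a) (g I a)) := by
  unfold cF
  exact lf_ask ((hf.div (lf_stat (TS.LF.const 19))).mul (lf_stat (TS.LF.const 19)))
    (lf_pair (TS.LF.const 1) (lf_pair hg (TS.LF.const 0)))

end lf

/-! ### Values -/

/-- The static digits and the tape are as they should be. -/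
structure InpOk (Y : Lay) (I : TS.Inp) (t : ℕ → ℕ) (L : ℕ) : Prop where
  t31 : Y.t = 31
  q1 : 1 ≤ Y.q
  q : stat I 1 = Y.q
  cm : stat I 11 = Y.cm
  nd : stat I 12 = Y.nd
  cell : ∀ p < L, CT.cell I p = t p
  pw : ∀ k < Y.cm, Y.q ^ k ≤ bnd I

variable {Y : Lay} {I : TS.Inp} {t : ℕ → ℕ} {L : ℕ}

theorem sum_mod_congr {N q : ℕ} {f g : ℕ → ℕ} (h : ∀ j < N, f j % q = g j % q) :
    (∑ j ∈ range N, f j) % q = (∑ j ∈ range N, g j) % q := by
  induction N with
  | zero => rfl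
  | succ N ih =>
    rw [sum_range_succ, sum_range_succ, Nat.add_mod, ih fun j hj => h j (by omega),
      h N (by omega), ← Nat.add_mod]

theorem bF_eq (h : InpOk Y I t L) {a : ℕ} (ha : 310 * (a + 1) ≤ L) (k : ℕ) :
    bF I a k = Y.bN a t k := by
  unfold bF Lay.bN
  rw [h.q, h.t31]
  refine sum_mod_congr fun j hj => ?_
  rw [h.cell _ (by omega), h.cell _ (by omega), pmod_eq h.q1, Nat.mul_mod_mod]

theorem dgF_eq (h : InpOk Y I t L) {x z k a : ℕ} (ha : 310 * a ≤ L)
    (hk : k < Y.cm + Y.nd + 310 * a) : dgF I x z k = Y.dgN x z t k := by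
  unfold dgF Lay.dgN
  rw [h.q, h.cm, h.nd, Lay.off_zero]
  split_ifs with h1 h2
  · rfl
  · rfl
  · exact h.cell _ (by omega)

theorem evF_eq (h : InpOk Y I t L) {a : ℕ} (ha : 310 * a ≤ L) (x z y : ℕ) :
    evF I a x z y = Y.evN a x z t y := by
  unfold evF Lay.evN
  have e : Y.off a = Y.cm + Y.nd + 310 * a := by unfold Lay.off; rw [h.t31]
  rw [h.q, h.cm, h.nd, e]
  refine sum_mod_congr fun k hk => ?_
  rw [dgF_eq h ha hk, pmod_eq h.q1, Nat.mul_mod_mod]

theorem hF_eq (h : InpOk Y I t L) {a o : ℕ} (ha : 310 * (a + 1) ≤ L) (ho : o < 62) (x z : ℕ) :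
    hF I a x z o = Y.hN a x z t o := by
  unfold hF Lay.hN
  rw [h.q, h.t31, h.cell _ (by omega), h.cell _ (by omega), h.cell _ (by omega),
    h.cell _ (by omega), evF_eq h (by omega), evF_eq h (by omega)]

theorem sgF_zero (g : ℕ) : sgF I 0 g = g := rfl

theorem sgF_one (h : InpOk Y I t L) (g : ℕ → ℕ) (k : ℕ) : sgF I 1 (g k) = Y.negD g k := by
  unfold sgF Lay.negD
  rw [if_neg one_ne_zero, h.q]

/-- The digits which are added: `g` or its negative. -/
def sgn (Y : Lay) (s : ℕ) (g : ℕ → ℕ) : ℕ → ℕ := if s = 0 then g else Y.negD g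

theorem sgF_eq (h : InpOk Y I t L) (s : ℕ) (g : ℕ → ℕ) (k : ℕ) :
    sgF I s (g k) = sgn Y s g k := by
  unfold sgF sgn
  split_ifs
  · rfl
  · unfold Lay.negD
    rw [h.q]

theorem zF_eq (h : InpOk Y I t L) {a c : ℕ} (ha : 310 * (a + 1) ≤ L) (hc : c ≤ Y.cm) (s z : ℕ) :
    zF I s a z c = Y.addZ c z (sgn Y s (Y.bN a t)) := by
  unfold zF zG Lay.addZ
  refine sum_congr rfl fun k hk => ?_
  have hk' := mem_range.1 hk
  rw [bF_eq h ha, sgF_eq h, h.q, min_eq_left]
  have := h.pw k (by omega)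
  omega

theorem tF_eq (h : InpOk Y I t L) {a p : ℕ} (ha : 310 * (a + 1) ≤ L) (hp : p < 310 * a) (s : ℕ) :
    tF I s a p = Y.addT a t (sgn Y s (Y.bN a t)) p := by
  unfold tF Lay.addT
  rw [bF_eq h ha, sgF_eq h, h.q, h.cell _ (by omega), h.cm, h.nd, h.t31, if_pos (by omega),
    Lay.off_zero]

theorem eF_eq (h : InpOk Y I t L) {a o : ℕ} (ha : 310 * (a + 1) ≤ L) (ho : o < 62) (s x z : ℕ) :
    eF I s a x z o = Y.addE a t (sgn Y s (Y.hN a x z t)) (310 * a + o) := by
  unfold eF Lay.addE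
  rw [hF_eq h ha ho, sgF_eq h, h.q, h.cell _ (by omega), h.t31, if_pos (by omega)]
  congr 3
  omega

end Vale.Agent.P313.H205
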