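import Mathlib

/-!
Averages over the random shifts `b_e = ∑ j, y_j (x_j ^ k)_k` of a vector space over `ZMod q`.
-/

namespace Vale.Agent.P313.H205

open Finset

variable {q : ℕ}

/-- The shift codes: `t` pairs `(x, y)` of elements of `ZMod q`. -/
abbrev Code (q t : ℕ) : Type := Fin t → ZMod q × ZMod q

/-- The random shift with code `e`: its coordinate at a place with number `k` is
`∑ j, y_j * x_j ^ k`. -/
def shiftVec {I : Type*} (num : I → ℕ) {t : ℕ} (e : Code q t) : I → ZMod q :=
  fun i => ∑ j, (e j).2 * (e j).1 ^ num i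

variable [hq : Fact q.Prime]

section Fourier

variable {I : Type*} [Fintype I] [DecidableEq I]

/-- The character of `I → ZMod q` with frequency `α`. -/
noncomputable def chr (α : I → ZMod q) (u : I → ZMod q) : ℂ :=
  ZMod.stdAddChar (∑ i, α i * u i)

omit [DecidableEq I] in
theorem chr_add (α u v : I → ZMod q) : chr α (u + v) = chr α u * chr α v := by
  unfold chr
  rw [← AddChar.map_add_eq_mul]
  congr 1
  simp [mul_add, Finset.sum_add_distrib]

omit [DecidableEq I] in
theorem chr_zero (α : I → ZMod q) : chr α 0 = 1 := by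
  simp [chr]

omit [DecidableEq I] in
theorem chr_zero' (u : I → ZMod q) : chr 0 u = 1 := by
  simp [chr]

omit [DecidableEq I] in
theorem chr_neg (α u : I → ZMod q) : chr α (-u) = (starRingEnd ℂ) (chr α u) := by
  unfold chr
  rw [← AddChar.map_neg_eq_conj]
  congr 1
  simp

omit [DecidableEq I] in
theorem stdAddChar_sum {J : Type*} (s : Finset J) (f : J → ZMod q) :
    (ZMod.stdAddChar (∑ j ∈ s, f j) : ℂ) = ∏ j ∈ s, (ZMod.stdAddChar (f j) : ℂ) := by
  classical
  induction s using Finset.induction_on with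
  | empty => simp
  | insert a s ha ih => rw [sum_insert ha, prod_insert ha, AddChar.map_add_eq_mul, ih]

/-- Orthogonality of the characters. -/
theorem sum_chr (w : I → ZMod q) :
    ∑ α : I → ZMod q, chr α w = if w = 0 then (q : ℂ) ^ Fintype.card I else 0 := by
  have h1 : ∀ α : I → ZMod q, chr α w = ∏ i, (ZMod.stdAddChar (α i * w i) : ℂ) := by
    intro α
    exact stdAddChar_sum _ _
  simp_rw [h1]
  rw [← Fintype.prod_sum (fun i (a : ZMod q) => (ZMod.stdAddChar (a * w i) : ℂ))]
  have h2 : ∀ i, ∑ a : ZMod q, (ZMod.stdAddChar (a * w i) : ℂ) = if w i = 0 then (q : ℂ) else 0 := by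
    intro i
    rw [AddChar.sum_mulShift (w i) (ZMod.isPrimitive_stdAddChar q)]
    simp [ZMod.card]
  simp_rw [h2]
  split_ifs with h
  · simp [h]
  · obtain ⟨i, hi⟩ : ∃ i, w i ≠ 0 := by
      by_contra hc
      exact h (funext fun i => by
        by_contra h'
        exact hc ⟨i, h'⟩)
    exact Finset.prod_eq_zero (mem_univ i) (if_neg hi)

omit [DecidableEq I] in
theorem chr_symm (α u : I → ZMod q) : chr α u = chr u α := by
  unfold chr
  congr 1
  exact sum_congr rfl fun i _ => mul_comm _ _

theorem sum_chr_right (α : I → ZMod q) :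
    ∑ u : I → ZMod q, chr α u = if α = 0 then (q : ℂ) ^ Fintype.card I else 0 := by
  rw [← sum_chr α]
  exact sum_congr rfl fun u _ => chr_symm _ _

/-- The unnormalised Fourier coefficient. -/
noncomputable def fhat (f : (I → ZMod q) → ℝ) (α : I → ZMod q) : ℂ :=
  ∑ u, (f u : ℂ) * chr α u

/-- Parseval's identity. -/
theorem parseval (f : (I → ZMod q) → ℝ) :
    ∑ α, ‖fhat f α‖ ^ 2 = (q : ℝ) ^ Fintype.card I * ∑ u, f u ^ 2 := by
  have h1 : ∀ α : I → ZMod q, ((‖fhat f α‖ ^ 2 : ℝ) : ℂ) =
      ∑ u, ∑ v, (f u : ℂ) * (f v : ℂ) * chr α (u - v) := by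
    intro α
    rw [← Complex.normSq_eq_norm_sq, Complex.normSq_eq_conj_mul_self, mul_comm]
    unfold fhat
    rw [map_sum, Finset.sum_mul_sum]
    refine sum_congr rfl fun u _ => sum_congr rfl fun v _ => ?_
    rw [map_mul, Complex.conj_ofReal, sub_eq_add_neg, chr_add, chr_neg]
    ring
  have h2 : ((∑ α : I → ZMod q, ‖fhat f α‖ ^ 2 : ℝ) : ℂ) =
      (q : ℂ) ^ Fintype.card I * ∑ u, (f u : ℂ) ^ 2 := by
    rw [Complex.ofReal_sum]
    simp_rw [h1]
    rw [sum_comm]
    simp_rw [sum_comm (s := (univ : Finset (I → ZMod q))) (t := univ) (f := fun α v => _ * chr α _)]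
    have h3 : ∀ u v : I → ZMod q, ∑ α : I → ZMod q, (f u : ℂ) * (f v : ℂ) * chr α (u - v) =
        if u = v then (q : ℂ) ^ Fintype.card I * (f u : ℂ) ^ 2 else 0 := by
      intro u v
      rw [← mul_sum, sum_chr]
      by_cases h : u = v
      · subst h; simp; ring
      · simp [h, sub_eq_zero]
    simp_rw [h3]
    simp [mul_sum]
  exact_mod_cast h2

/-- The number of roots in `ZMod q` of `∑ i, α i * x ^ num i`. -/
noncomputable def rootCount (num : I → ℕ) (α : I → ZMod q) : ℕ :=
  #{x : ZMod q | ∑ i, α i * x ^ num i = 0}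

omit [DecidableEq I] in
/-- A nonzero polynomial with exponents below `N` has less than `N` roots. -/
theorem rootCount_le {num : I → ℕ} (hinj : Function.Injective num) {N : ℕ}
    (hN : ∀ i, num i < N) {α : I → ZMod q} (hα : α ≠ 0) : rootCount num α ≤ N := by
  obtain ⟨i₀, hi₀⟩ : ∃ i, α i ≠ 0 := by
    by_contra hc
    exact hα (funext fun i => by
      by_contra h'
      exact hc ⟨i, h'⟩)
  let P : Polynomial (ZMod q) := ∑ i, Polynomial.monomial (num i) (α i)
  have hev : ∀ x, P.eval x = ∑ i, α i * x ^ num i := by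
    intro x
    simp [P, Polynomial.eval_finsetSum]
  have hP : P ≠ 0 := by
    intro h
    have hc : P.coeff (num i₀) = α i₀ := by
      simp only [P, Polynomial.finsetSum_coeff, Polynomial.coeff_monomial]
      rw [sum_eq_single i₀]
      · simp
      · intro i _ hi
        rw [if_neg (fun h => hi (hinj h))]
      · simp
    rw [h] at hc
    exact hi₀ (by simpa using hc.symm)
  have hdeg : P.natDegree ≤ N := by
    refine Polynomial.natDegree_sum_le_of_forall_le _ _ fun i _ => ?_
    exact (Polynomial.natDegree_monomial_le _).trans (hN i).le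
  have hsub : (univ.filter fun x : ZMod q => ∑ i, α i * x ^ num i = 0) ⊆ P.roots.toFinset := by
    intro x hx
    simp only [mem_filter, mem_univ, true_and] at hx
    rw [Multiset.mem_toFinset, Polynomial.mem_roots hP, Polynomial.IsRoot.def, hev, hx]
  calc rootCount num α ≤ #P.roots.toFinset := card_le_card hsub
    _ ≤ Multiset.card P.roots := Multiset.toFinset_card_le _
    _ ≤ P.natDegree := Polynomial.card_roots' P
    _ ≤ N := hdeg

omit [DecidableEq I] in
/-- The sum of a character over all shifts. -/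
theorem sum_chr_shiftVec (num : I → ℕ) (t : ℕ) (α : I → ZMod q) :
    ∑ e : Code q t, chr α (shiftVec num e) = ((q : ℂ) * rootCount num α) ^ t := by
  have h1 : ∀ e : Code q t, chr α (shiftVec num e) =
      ∏ j, (ZMod.stdAddChar ((e j).2 * ∑ i, α i * (e j).1 ^ num i) : ℂ) := by
    intro e
    unfold chr shiftVec
    rw [← stdAddChar_sum]
    congr 1
    simp_rw [mul_sum]
    rw [sum_comm]
    refine sum_congr rfl fun j _ => sum_congr rfl fun i _ => ?_
    ring
  simp_rw [h1]
  rw [← Fintype.prod_sum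
    (fun (_ : Fin t) (a : ZMod q × ZMod q) =>
      (ZMod.stdAddChar (a.2 * ∑ i, α i * a.1 ^ num i) : ℂ))]
  rw [prod_const, card_univ, Fintype.card_fin]
  congr 1
  rw [Fintype.sum_prod_type]
  have h2 : ∀ x : ZMod q, ∑ y : ZMod q, (ZMod.stdAddChar (y * ∑ i, α i * x ^ num i) : ℂ) =
      if ∑ i, α i * x ^ num i = 0 then (q : ℂ) else 0 := by
    intro x
    rw [AddChar.sum_mulShift _ (ZMod.isPrimitive_stdAddChar q)]
    simp [ZMod.card]
  simp_rw [h2]
  rw [← sum_filter, sum_const, rootCount, nsmul_eq_mul, mul_comm]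

/-- The average of `f` over the random shifts (unnormalised). -/
def shiftSum (num : I → ℕ) (t : ℕ) (f : (I → ZMod q) → ℝ) (u : I → ZMod q) : ℝ :=
  ∑ e : Code q t, f (u - shiftVec num e)

theorem fhat_shiftSum (num : I → ℕ) (t : ℕ) (f : (I → ZMod q) → ℝ) (α : I → ZMod q) :
    fhat (shiftSum num t f) α = ((q : ℂ) * rootCount num α) ^ t * fhat f α := by
  rw [← sum_chr_shiftVec, sum_mul]
  unfold fhat shiftSum
  push_cast
  simp_rw [sum_mul]
  rw [sum_comm]
  refine sum_congr rfl fun e _ => ?_
  rw [mul_sum]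
  refine Fintype.sum_equiv (Equiv.subRight (shiftVec num e)) _ _ fun u => ?_
  simp only [Equiv.subRight_apply]
  have : chr α u = chr α (shiftVec num e) * chr α (u - shiftVec num e) := by
    rw [← chr_add]
    congr 1
    abel
  rw [this]
  ring

theorem fhat_sub (f g : (I → ZMod q) → ℝ) (α : I → ZMod q) :
    fhat (fun u => f u - g u) α = fhat f α - fhat g α := by
  unfold fhat
  rw [← sum_sub_distrib]
  refine sum_congr rfl fun u _ => ?_
  push_cast
  ring

theorem fhat_const (c : ℝ) (α : I → ZMod q) :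
    fhat (fun _ => c) α = if α = 0 then (q : ℂ) ^ Fintype.card I * c else 0 := by
  unfold fhat
  rw [← mul_sum, sum_chr_right]
  split_ifs <;> ring

/-- The spectral gap of the random shifts. -/
theorem shift_gap {num : I → ℕ} (hinj : Function.Injective num) {N : ℕ}
    (hN : ∀ i, num i < N) (t : ℕ) (f : (I → ZMod q) → ℝ) :
    ∑ u, (shiftSum num t f u / (q : ℝ) ^ (2 * t) -
      (∑ v, f v) / (q : ℝ) ^ Fintype.card I) ^ 2 ≤
      (((N : ℝ) / q) ^ t) ^ 2 * ∑ u, f u ^ 2 := by
  have hq0 : (0 : ℝ) < q := by exact_mod_cast hq.out.pos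
  have hG : (0 : ℝ) < (q : ℝ) ^ Fintype.card I := by positivity
  set c : ℝ := (∑ v, f v) / (q : ℝ) ^ Fintype.card I with hc
  set D : (I → ZMod q) → ℝ := fun u => shiftSum num t f u / (q : ℝ) ^ (2 * t) - c with hD
  have h1 : ∀ α : I → ZMod q, ‖fhat D α‖ ^ 2 ≤ (((N : ℝ) / q) ^ t) ^ 2 * ‖fhat f α‖ ^ 2 := by
    intro α
    have hlin : fhat D α = fhat (shiftSum num t f) α / (q : ℂ) ^ (2 * t) -
        fhat (fun _ => c) α := by
      rw [hD, fhat_sub]
      congr 1
      unfold fhat
      rw [sum_div]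
      refine sum_congr rfl fun u _ => ?_
      push_cast
      ring
    rw [hlin, fhat_shiftSum, fhat_const]
    by_cases hα : α = 0
    · subst hα
      have hr : (rootCount num (0 : I → ZMod q) : ℂ) = q := by
        unfold rootCount
        simp [ZMod.card]
      have h0 : fhat f 0 = ∑ v, (f v : ℂ) := by
        unfold fhat
        refine sum_congr rfl fun u _ => ?_
        rw [chr_zero', mul_one]
      have hq' : (q : ℂ) ≠ 0 := by exact_mod_cast hq0.ne'
      have : ((q : ℂ) * rootCount num (0 : I → ZMod q)) ^ t * fhat f 0 / (q : ℂ) ^ (2 * t) -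
          (if (0 : I → ZMod q) = 0 then (q : ℂ) ^ Fintype.card I * (c : ℂ) else 0) = 0 := by
        rw [if_pos rfl, hr, h0, hc]
        push_cast
        rw [← pow_two, ← pow_mul]
        field_simp
        ring
      rw [this, norm_zero, zero_pow two_ne_zero]
      positivity
    · rw [if_neg hα, sub_zero, norm_div, norm_mul, norm_pow, norm_mul, norm_pow]
      have hr : (rootCount num α : ℝ) ≤ N := by exact_mod_cast rootCount_le hinj hN hα
      rw [Complex.norm_natCast, Complex.norm_natCast]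
      rw [div_pow, mul_pow, ← pow_mul, ← pow_mul]
      have : ((q : ℝ) * rootCount num α) ^ (t * 2) * ‖fhat f α‖ ^ 2 /
          (q : ℝ) ^ (2 * t * 2) = (((rootCount num α : ℝ) / q) ^ t) ^ 2 * ‖fhat f α‖ ^ 2 := by
        rw [div_pow, div_pow, ← pow_mul, ← pow_mul, mul_pow]
        have : (q : ℝ) ^ (2 * t * 2) = (q : ℝ) ^ (t * 2) * (q : ℝ) ^ (t * 2) := by
          rw [← pow_add]; congr 1; ring
        rw [this]
        field_simp
      rw [this]
      gcongr
  have h2 : ∑ α, ‖fhat D α‖ ^ 2 ≤ (((N : ℝ) / q) ^ t) ^ 2 * ∑ α, ‖fhat f α‖ ^ 2 := by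
    rw [mul_sum]
    exact sum_le_sum fun α _ => h1 α
  rw [parseval, parseval] at h2
  have h3 : (q : ℝ) ^ Fintype.card I * ∑ u, D u ^ 2 ≤
      (q : ℝ) ^ Fintype.card I * ((((N : ℝ) / q) ^ t) ^ 2 * ∑ u, f u ^ 2) := by
    linarith
  exact le_of_mul_le_mul_left h3 hG

/-- The random shifts are symmetric. -/
theorem shiftSum_symm (num : I → ℕ) (t : ℕ) (f g : (I → ZMod q) → ℝ) :
    ∑ u, shiftSum num t f u * g u = ∑ u, f u * shiftSum num t g u := by
  unfold shiftSum
  simp_rw [sum_mul, mul_sum]
  rw [sum_comm]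
  conv_rhs => rw [sum_comm]
  let ng : Code q t ≃ Code q t :=
    { toFun := fun e j => ((e j).1, -(e j).2)
      invFun := fun e j => ((e j).1, -(e j).2)
      left_inv := fun e => by funext j; simp
      right_inv := fun e => by funext j; simp }
  have hng : ∀ e, shiftVec num (ng e) = -shiftVec num e := by
    intro e
    funext i
    simp [shiftVec, ng]
  refine Fintype.sum_equiv ng _ _ fun e => ?_
  refine Fintype.sum_equiv (Equiv.subRight (shiftVec num e)) _ _ fun u => ?_
  simp [hng]

end Fourier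

end Vale.Agent.P313.H205
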