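import Vale.Agent.P313.H205.HopK
import Vale.Agent.P313.H136.BrOf

/-!
Sums over the children of a content are sums over the tokens whose hop is the given token.
-/

namespace Vale.Agent.P313.H205

open Finset Classical BP H136 H644

variable {p : Par2} [hq0 : NeZero p.q] {d : SD}

omit hq0 in
theorem Dc_zero (u0 : (lay p d).X0) (v z : ℕ) (t : CT.Tape) (hv : v < p.n)
    (hz : z < (lay p d).q ^ (lay p d).c v) :
    Dc p d u0 0 ⟨v, z, t⟩ = (⟨⟨v, hv⟩, ⟨z, hz⟩⟩ : (lay p d).X0) :=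
  dif_pos ⟨hv, hz⟩

/-- Field `sum_dn` of the bridge. -/
theorem sum_dn (hr : ∀ v < p.n, ∑ x ∈ range p.n, d.A v x = p.q ^ p.b)
    (hb : ∀ v < p.n, p.b ≤ d.c v) (hc : ∀ v < p.n, d.c v ≤ p.cmax) (u0 : (lay p d).X0)
    {y : Cn} (hy : VdS p d y) (G : (lay p d).X0 → ℕ) :
    ∑ j ∈ range ((wk p d).mv.nc 0 y), G (Dc p d u0 0 ((wk p d).mv.dn 0 y j)) =
      ∑ u ∈ univ.filter (fun u => (sysc p d).T0 u = Dc p d u0 0 y), G u := by
  refine sum_hop (D0 := fun v z => Dc p d u0 0 ⟨v, z, y.tp⟩) hr hb hc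
    (fun v z hv hz => Dc_zero u0 v z y.tp hv hz) hy.1 hy.2.1 _ (fun u => ?_) G
  rw [mem_filter_univ]
  exact Iff.rfl

/-- Field `P_dn` of the bridge. -/
theorem vds_dn (hr : ∀ v < p.n, ∑ x ∈ range p.n, d.A v x = p.q ^ p.b)
    (hb : ∀ v < p.n, p.b ≤ d.c v) {y : Cn} (hy : VdS p d y) {j : ℕ}
    (hj : j < (wk p d).mv.nc 0 y) : VdS p d ((wk p d).mv.dn 0 y j) := by
  have hH : 0 < p.q ^ d.c y.x := Nat.pow_pos (Nat.pos_of_ne_zero (NeZero.ne p.q))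
  have h1 := H899.dnv_lt (n := p.n) (F := H899.FD p.toPar d) (H := fun x => p.q ^ d.c x) hH hj
  have h2 := H899.dnz_lt (n := p.n) (F := H899.FD p.toPar d) (H := fun x => p.q ^ d.c x)
    hy.1 hH hj
  rw [H899.rowS_FD (hr _ h1) (hb _ h1)] at h2
  exact ⟨h1, h2, hy.2.2⟩

end Vale.Agent.P313.H205
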