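import Vale.Agent.P313.H205.Gap
import Vale.Agent.P313.H136.Dbl

/-!
The concrete tokens as an instance of the abstract levels.
-/

namespace Vale.Agent.P313.H205

open Finset H136

namespace Lay

variable {Y : Lay}

section basic

variable [NeZero Y.q]

/-- The concrete levels with a given hop. -/
def sys (hc : ∀ w, Y.c w ≤ Y.cm) (T0 : Y.X0 → Y.X0) : Sys (Fin Y.n) Y.X0 Y.Ec Y.Sd where
  st := Sigma.fst
  T0 := T0
  sh := sh hc
  hs := Y.hs

theorem stT_sys (hc : ∀ w, Y.c w ≤ Y.cm) (T0 : Y.X0 → Y.X0) : ∀ (a : ℕ) (u : Y.X a),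
    (sys hc T0).stT a u = Y.st a u
  | 0, _ => rfl
  | a + 1, u => stT_sys hc T0 a u.1

/-- Shifts preserve the state. -/
theorem stT_sh (hc : ∀ w, Y.c w ≤ Y.cm) (T0 : Y.X0 → Y.X0) (a : ℕ) (e : Y.Ec) (u : Y.X a) :
    (sys hc T0).stT a ((sys hc T0).sh a e u) = (sys hc T0).stT a u := by
  rw [stT_sys, stT_sys]
  exact st_sh hc a e u

/-- Negating the second components of a shift code. -/
def negE (Y : Lay) : Equiv.Perm Y.Ec where
  toFun e i := if i.1 % 2 = 0 then e i else -e i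
  invFun e i := if i.1 % 2 = 0 then e i else -e i
  left_inv e := by
    funext i
    simp only
    split_ifs <;> simp
  right_inv e := by
    funext i
    simp only
    split_ifs <;> simp

omit [NeZero Y.q] in
theorem bv_negE (e : Y.Ec) : Y.bv (negE Y e) = -Y.bv e := by
  funext k
  unfold bv
  rw [Pi.neg_apply, ← sum_neg_distrib]
  refine sum_congr rfl fun j _ => ?_
  have h1 : (negE Y e) ⟨2 * j + 1, by omega⟩ = -e ⟨2 * j + 1, by omega⟩ := by
    show (if (2 * j.1 + 1) % 2 = 0 then _ else _) = _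
    rw [if_neg (by omega)]
  have h2 : (negE Y e) ⟨2 * j, by omega⟩ = e ⟨2 * j, by omega⟩ := by
    show (if (2 * j.1) % 2 = 0 then _ else _) = _
    rw [if_pos (by omega)]
  rw [h1, h2]
  ring

theorem sh_negE (hc : ∀ w, Y.c w ≤ Y.cm) (a : ℕ) (e : Y.Ec) :
    sh hc a (negE Y e) = (sh hc a e).symm := by
  ext1 u
  show Y.shv a (Y.bv (negE Y e)) u = Y.shv a (-Y.bv e) u
  rw [bv_negE]

theorem symm_sys (hc : ∀ w, Y.c w ≤ Y.cm) (T0 : Y.X0 → Y.X0) : (sys hc T0).Symm :=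
  fun a => ⟨negE Y, sh_negE hc a⟩

omit [NeZero Y.q] in
/-- The number of tokens of a state. -/
theorem card_X0 (w : Fin Y.n) : #{u : Y.X0 | u.1 = w} = Y.q ^ Y.c w := by
  have h : (univ.filter fun u : Y.X0 => u.1 = w) =
      (univ : Finset (Fin (Y.q ^ Y.c w))).map ⟨fun z => (⟨w, z⟩ : Y.X0), fun z z' hz => by
        simpa using hz⟩ := by
    ext u
    obtain ⟨w', z⟩ := u
    simp only [mem_filter, mem_univ, true_and, mem_map]
    constructor
    · rintro rfl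
      exact ⟨z, rfl⟩
    · rintro ⟨z', h⟩
      exact (congrArg Sigma.fst h).symm
  rw [h, card_map, card_univ, Fintype.card_fin]

end basic

section prime

variable [hq : Fact Y.q.Prime]

theorem card_L : Fintype.card (Y.Ec × Y.Sd) = Y.q ^ (10 * Y.t) := by
  rw [Fintype.card_prod, Fintype.card_fun, Fintype.card_fun, Fintype.card_fun, ZMod.card,
    Fintype.card_fin, Fintype.card_fin, ← pow_mul, ← pow_add]
  congr 1
  ring

theorem hh_sys (hc : ∀ w, Y.c w ≤ Y.cm) (T0 : Y.X0 → Y.X0) (μ : ℝ) (w : Fin Y.n) :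
    (sys hc T0).hh μ w = μ * (Y.q : ℝ) ^ Y.c w := by
  unfold Sys.hh
  congr 1
  have h := card_X0 (Y := Y) w
  rw [← Nat.cast_pow, ← h]
  norm_cast
  exact congrArg Finset.card (Finset.filter_congr_decidable _ _ _)

theorem hh_pos (hc : ∀ w, Y.c w ≤ Y.cm) (T0 : Y.X0 → Y.X0) {μ : ℝ} (hμ : 0 < μ) (w : Fin Y.n) :
    0 < (sys hc T0).hh μ w := by
  rw [hh_sys]
  have : (0 : ℝ) < Y.q := by exact_mod_cast hq.out.pos
  positivity

/-- Averages over the tokens of a state. -/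
theorem Jv_sys (hc : ∀ w, Y.c w ≤ Y.cm) (T0 : Y.X0 → Y.X0) {μ : ℝ} (hμ : 0 < μ) (a : ℕ)
    (m : Y.X a → ℝ) (w : Fin Y.n) :
    (sys hc T0).Jv μ a m w = (∑ v with Y.st a v = w, m v) / #{v : Y.X a | Y.st a v = w} := by
  have hq0 : (0 : ℝ) < Y.q := by exact_mod_cast hq.out.pos
  unfold Sys.Jv Sys.wt
  rw [hh_sys, card_fib hc, card_L]
  refine Eq.trans (congrArg (fun z => z / _) (a₂ := μ / ((Y.q ^ (10 * Y.t) : ℕ) : ℝ) ^ a *
    ∑ v with Y.st a v = w, m v) ?_) ?_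
  · rw [mul_sum]
    refine sum_congr ?_ fun _ _ => rfl
    ext u
    simp only [mem_filter, mem_univ, true_and, stT_sys]
  · push_cast
    rw [pow_add, ← pow_mul]
    field_simp

/-- The spectral gap in the form of the abstract levels. -/
theorem mixes (hc : ∀ w, Y.c w ≤ Y.cm) (T0 : Y.X0 → Y.X0) {μ : ℝ} (hμ : 0 < μ) (a : ℕ)
    {lam : ℝ} (hlam : ((Y.off a : ℝ) / Y.q) ^ Y.t ≤ lam) (m : Y.X a → ℝ) :
    (sys hc T0).nsqT μ a (fun u => (sys hc T0).Av a m u -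
      (sys hc T0).Jv μ a m ((sys hc T0).stT a u)) ≤ lam ^ 2 * (sys hc T0).nsqT μ a m := by
  have hw : 0 ≤ (sys hc T0).wt μ a := Sys.wt_nonneg hμ.le
  have h := gap hc a m
  have h1 : ∑ u, ((sys hc T0).Av a m u - (sys hc T0).Jv μ a m ((sys hc T0).stT a u)) ^ 2 ≤
      lam ^ 2 * ∑ u, m u ^ 2 := by
    refine (le_of_eq (sum_congr rfl fun u _ => ?_)).trans (h.trans ?_)
    · rw [Jv_sys hc T0 hμ, stT_sys]
      rfl
    · refine mul_le_mul_of_nonneg_right ?_ (sum_nonneg fun _ _ => sq_nonneg _)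
      refine pow_le_pow_left₀ ?_ hlam 2
      positivity
  unfold Sys.nsqT nsq
  rw [← mul_sum, ← mul_sum]
  calc (sys hc T0).wt μ a * _ ≤ (sys hc T0).wt μ a * (lam ^ 2 * ∑ u, m u ^ 2) :=
        mul_le_mul_of_nonneg_left h1 hw
    _ = lam ^ 2 * ((sys hc T0).wt μ a * ∑ u, m u ^ 2) := by ring

/-- The hash functions in the form of the abstract levels. -/
theorem hashes (hc : ∀ w, Y.c w ≤ Y.cm) (hn : Y.n ≤ Y.q ^ Y.nd) (T0 : Y.X0 → Y.X0) (a : ℕ)
    (hN : 4 * Y.t * Y.off a ^ 2 ≤ Y.q) (u1 u2 : Y.X a) (h : u1 ≠ u2) (κ : Y.Ec) :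
    ((@Finset.filter _ (fun s => (sys hc T0).hs a s u1 - (sys hc T0).hs a s u2 = κ)
      (fun _ => Classical.propDecidable _) univ).card : ℝ) * Fintype.card Y.Ec ≤
      2 * Fintype.card Y.Sd := by
  have h1 := hs_pair hc hn a hN h κ
  have h2 : (@Finset.filter _ (fun s => (sys hc T0).hs a s u1 - (sys hc T0).hs a s u2 = κ)
      (fun _ => Classical.propDecidable _) univ).card =
      #{s : Y.Sd | Y.hs a s u1 - Y.hs a s u2 = κ} :=
    congrArg Finset.card (Finset.filter_congr_decidable _ _ _)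
  rw [h2]
  exact_mod_cast h1

/-- The shifts of the first `r` levels mix. -/
theorem mixes_sys (hc : ∀ w, Y.c w ≤ Y.cm) (T0 : Y.X0 → Y.X0) {μ : ℝ} (hμ : 0 < μ) {r : ℕ}
    {lam : ℝ} (hlam : ((Y.off r : ℝ) / Y.q) ^ Y.t ≤ lam) : (sys hc T0).Mixes μ lam r := by
  intro a ha m
  refine mixes hc T0 hμ a (le_trans ?_ hlam) m
  have h : (Y.off a : ℝ) ≤ Y.off r := by exact_mod_cast off_mono ha.le
  have hq0 : (0 : ℝ) < Y.q := by exact_mod_cast hq.out.pos
  gcongr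

/-- The hash functions of the first `r` levels are almost pairwise independent. -/
theorem hashes_sys (hc : ∀ w, Y.c w ≤ Y.cm) (hn : Y.n ≤ Y.q ^ Y.nd) (T0 : Y.X0 → Y.X0) {r : ℕ}
    (hN : 4 * Y.t * Y.off r ^ 2 ≤ Y.q) : (sys hc T0).Hashes r := by
  intro a ha u1 u2 h κ
  refine hashes hc hn T0 a (le_trans ?_ hN) u1 u2 h κ
  exact Nat.mul_le_mul_left _ (Nat.pow_le_pow_left (off_mono ha.le) 2)

end prime

end Lay

end Vale.Agent.P313.H205
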